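import Mathlib

/-!
The radial averaging operator s ↦ ∫₀¹ τ^m f(τ² s) dτ, which inverts 2 s f' + (m+1) f
and preserves smoothness through s = 0.
-/

namespace Vale.Agent.P252

open Set Filter Topology MeasureTheory
open scoped ContDiff

/-- The weighted average ∫₀¹ τ^m f(τ² s) dτ. -/
noncomputable def avg (m : ℕ) (f : ℝ → ℝ) (s : ℝ) : ℝ :=
  ∫ τ in (0:ℝ)..1, τ ^ m * f (τ ^ 2 * s)

lemma scaled_mem {δ s τ : ℝ} (hs : s ∈ Icc (-δ) δ) (hτ : τ ∈ Icc (0:ℝ) 1) :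
    τ ^ 2 * s ∈ Icc (-δ) δ := by
  have h1 : τ ^ 2 ≤ 1 := by nlinarith [hτ.1, hτ.2]
  have h2 : |τ ^ 2 * s| ≤ δ := by
    rw [abs_mul, abs_of_nonneg (sq_nonneg τ)]
    have : |s| ≤ δ := abs_le.2 hs
    nlinarith [abs_nonneg s, sq_nonneg τ]
  exact abs_le.1 h2

lemma avg_zero (m : ℕ) (f : ℝ → ℝ) : avg m f 0 = f 0 / (m + 1) := by
  simp [avg, intervalIntegral.integral_mul_const, integral_pow]
  ring

lemma avg_congr {m : ℕ} {f g : ℝ → ℝ} {δ s : ℝ} (h : EqOn f g (Icc (-δ) δ))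
    (hs : s ∈ Icc (-δ) δ) : avg m f s = avg m g s := by
  refine intervalIntegral.integral_congr fun τ hτ => ?_
  rw [uIcc_of_le zero_le_one] at hτ
  show τ ^ m * f (τ ^ 2 * s) = τ ^ m * g (τ ^ 2 * s)
  rw [h (scaled_mem hs hτ)]

lemma avg_continuous (m : ℕ) {f : ℝ → ℝ} (hf : Continuous f) : Continuous (avg m f) := by
  unfold avg
  exact intervalIntegral.continuous_parametric_intervalIntegral_of_continuous' (by fun_prop) _ _

lemma avg_dist (m : ℕ) {f g : ℝ → ℝ} (hf : Continuous f) (hg : Continuous g) {B : ℝ}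
    (hB : ∀ x, |f x - g x| ≤ B) (s : ℝ) : |avg m f s - avg m g s| ≤ B := by
  have hi : ∀ {h : ℝ → ℝ}, Continuous h →
      IntervalIntegrable (fun τ => τ ^ m * h (τ ^ 2 * s)) volume 0 1 := fun hh =>
    (by fun_prop : Continuous fun τ => τ ^ m * _ ).intervalIntegrable 0 1
  rw [avg, avg, ← intervalIntegral.integral_sub (hi hf) (hi hg)]
  have := intervalIntegral.norm_integral_le_of_norm_le_const (a := (0:ℝ)) (b := 1) (C := B)
    (f := fun τ => τ ^ m * f (τ ^ 2 * s) - τ ^ m * g (τ ^ 2 * s)) (fun τ hτ => by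
      rw [uIoc_of_le zero_le_one] at hτ
      rw [Real.norm_eq_abs, ← mul_sub, abs_mul, abs_of_nonneg (pow_nonneg hτ.1.le m)]
      exact (mul_le_of_le_one_left (abs_nonneg _) (pow_le_one₀ hτ.1.le hτ.2)).trans (hB _))
  simpa using this

lemma avg_continuousOn (m : ℕ) {f : ℝ → ℝ} {δ : ℝ} (hf : ContinuousOn f (Ioo (-δ) δ)) :
    ContinuousOn (avg m f) (Ioo (-δ) δ) := by
  intro s hs
  obtain ⟨ρ, hρ1, hρ2⟩ := exists_between (abs_lt.2 hs)
  have hρ0 : 0 ≤ ρ := (abs_nonneg s).trans hρ1.le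
  let F : ℝ → ℝ := fun x => f (projIcc (-ρ) ρ (by linarith) x)
  have hF : Continuous F :=
    (hf.mono (Icc_subset_Ioo (by linarith) (by linarith))).comp_continuous
      (continuous_subtype_val.comp continuous_projIcc) fun x => (projIcc (-ρ) ρ _ x).2
  have heq : EqOn (avg m f) (avg m F) (Icc (-ρ) ρ) := fun x hx =>
    avg_congr (fun y hy => by simp [F, projIcc_of_mem _ hy]) hx
  have hnhds : Icc (-ρ) ρ ∈ 𝓝 s := Icc_mem_nhds (abs_lt.1 hρ1).1 (abs_lt.1 hρ1).2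
  exact ((avg_continuous m hF).continuousAt.congr
    (eventually_of_mem hnhds fun x hx => (heq hx).symm)).continuousWithinAt

lemma avg_hasDerivAt (m : ℕ) {f : ℝ → ℝ} {δ : ℝ} (hf : ContDiffOn ℝ 1 f (Ioo (-δ) δ)) {s : ℝ}
    (hs : s ∈ Ioo (-δ) δ) : HasDerivAt (avg m f) (avg (m + 2) (deriv f) s) s := by
  obtain ⟨ρ, hρ1, hρ2⟩ := exists_between (abs_lt.2 hs)
  have hsub : Icc (-ρ) ρ ⊆ Ioo (-δ) δ := Icc_subset_Ioo (by linarith) (by linarith)
  have hcd : ContinuousOn (deriv f) (Ioo (-δ) δ) :=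
    hf.continuousOn_deriv_of_isOpen isOpen_Ioo le_rfl
  obtain ⟨B, hB⟩ := isCompact_Icc.exists_bound_of_continuousOn (hcd.mono hsub)
  have hnhds : Icc (-ρ) ρ ∈ 𝓝 s := Icc_mem_nhds (abs_lt.1 hρ1).1 (abs_lt.1 hρ1).2
  have hmap : ∀ x ∈ Icc (-ρ) ρ, MapsTo (fun τ => τ ^ 2 * x) (Icc (0:ℝ) 1) (Ioo (-δ) δ) :=
    fun x hx τ hτ => hsub (scaled_mem hx hτ)
  have hci : ∀ x ∈ Icc (-ρ) ρ,
      ContinuousOn (fun τ => τ ^ m * f (τ ^ 2 * x)) (Icc (0:ℝ) 1) := fun x hx =>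
    (continuous_pow m).continuousOn.mul (hf.continuousOn.comp (by fun_prop) (hmap x hx))
  have hms : ∀ x ∈ Icc (-ρ) ρ,
      AEStronglyMeasurable (fun τ => τ ^ m * f (τ ^ 2 * x)) (volume.restrict (uIoc (0:ℝ) 1)) := by
    intro x hx
    rw [uIoc_of_le zero_le_one]
    exact ((hci x hx).mono Ioc_subset_Icc_self).aestronglyMeasurable measurableSet_Ioc
  have hsI : s ∈ Icc (-ρ) ρ := mem_of_mem_nhds hnhds
  have hd : AEStronglyMeasurable (fun τ => τ ^ (m + 2) * deriv f (τ ^ 2 * s))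
      (volume.restrict (uIoc (0:ℝ) 1)) := by
    rw [uIoc_of_le zero_le_one]
    exact (((continuous_pow _).continuousOn.mul (hcd.comp (by fun_prop) (hmap s hsI))).mono
      Ioc_subset_Icc_self).aestronglyMeasurable measurableSet_Ioc
  exact (intervalIntegral.hasDerivAt_integral_of_dominated_loc_of_deriv_le (μ := volume)
    (F := fun x τ => τ ^ m * f (τ ^ 2 * x))
    (F' := fun x τ => τ ^ (m + 2) * deriv f (τ ^ 2 * x)) (bound := fun _ => B) hnhds
    (eventually_of_mem hnhds hms)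
    ((hci s hsI).intervalIntegrable_of_Icc zero_le_one) hd
    (ae_of_all _ fun τ hτ x hx => by
      rw [uIoc_of_le zero_le_one] at hτ
      rw [norm_mul, Real.norm_of_nonneg (pow_nonneg hτ.1.le _)]
      exact (mul_le_of_le_one_left (norm_nonneg _) (pow_le_one₀ hτ.1.le hτ.2)).trans
        (hB _ (scaled_mem hx ⟨hτ.1.le, hτ.2⟩)))
    intervalIntegrable_const
    (ae_of_all _ fun τ hτ x hx => by
      rw [uIoc_of_le zero_le_one] at hτ
      have hxm := hmap x hx ⟨hτ.1.le, hτ.2⟩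
      have h1 : HasDerivAt f (deriv f (τ ^ 2 * x)) (τ ^ 2 * x) :=
        ((hf.differentiableOn one_ne_zero).differentiableAt
          (isOpen_Ioo.mem_nhds hxm)).hasDerivAt
      have h2 : HasDerivAt (fun x => τ ^ 2 * x) (τ ^ 2) x := by
        simpa using (hasDerivAt_id x).const_mul (τ ^ 2)
      exact ((h1.comp x h2).const_mul (τ ^ m)).congr_deriv (by rw [pow_add]; ring))).2

lemma avg_contDiffOn (k : ℕ) : ∀ (m : ℕ) {f : ℝ → ℝ} {δ : ℝ},
    ContDiffOn ℝ k f (Ioo (-δ) δ) → ContDiffOn ℝ k (avg m f) (Ioo (-δ) δ) := by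
  induction k with
  | zero =>
    intro m f δ hf
    exact contDiffOn_zero.2 (avg_continuousOn m (contDiffOn_zero.1 hf))
  | succ k ih =>
    intro m f δ hf
    have hf1 : ContDiffOn ℝ 1 f (Ioo (-δ) δ) :=
      hf.of_le (by exact_mod_cast Nat.succ_le_succ (Nat.zero_le k))
    have hd : ContDiffOn ℝ k (deriv f) (Ioo (-δ) δ) := by
      have hf' : ContDiffOn ℝ ((k:WithTop ℕ∞) + 1) f (Ioo (-δ) δ) := by exact_mod_cast hf
      exact ((contDiffOn_succ_iff_deriv_of_isOpen isOpen_Ioo).1 hf').2.2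
    have : ContDiffOn ℝ ((k:WithTop ℕ∞) + 1) (avg m f) (Ioo (-δ) δ) := by
      refine (contDiffOn_succ_iff_deriv_of_isOpen isOpen_Ioo).2 ⟨fun s hs =>
        (avg_hasDerivAt m hf1 hs).differentiableAt.differentiableWithinAt, by simp, ?_⟩
      exact (ih (m + 2) hd).congr fun s hs => (avg_hasDerivAt m hf1 hs).deriv
    exact_mod_cast this

/-- avg m f solves 2 s y' + (m+1) y = f. -/
lemma avg_ode (m : ℕ) {f : ℝ → ℝ} {δ : ℝ} (hf : ContDiffOn ℝ 1 f (Ioo (-δ) δ)) {s : ℝ}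
    (hs : s ∈ Ioo (-δ) δ) :
    2 * s * avg (m + 2) (deriv f) s + (m + 1) * avg m f s = f s := by
  obtain ⟨ρ, hρ1, hρ2⟩ := exists_between (abs_lt.2 hs)
  have hsub : Icc (-ρ) ρ ⊆ Ioo (-δ) δ := Icc_subset_Ioo (by linarith) (by linarith)
  have hsI : s ∈ Icc (-ρ) ρ := abs_le.1 hρ1.le
  have hmap : MapsTo (fun τ => τ ^ 2 * s) (Icc (0:ℝ) 1) (Ioo (-δ) δ) :=
    fun τ hτ => hsub (scaled_mem hsI hτ)
  have hcd : ContinuousOn (deriv f) (Ioo (-δ) δ) :=
    hf.continuousOn_deriv_of_isOpen isOpen_Ioo le_rfl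
  have hc1 : ContinuousOn (fun τ => τ ^ m * f (τ ^ 2 * s)) (Icc (0:ℝ) 1) :=
    (continuous_pow m).continuousOn.mul (hf.continuousOn.comp (by fun_prop) hmap)
  have hc2 : ContinuousOn (fun τ => τ ^ (m + 2) * deriv f (τ ^ 2 * s)) (Icc (0:ℝ) 1) :=
    (continuous_pow _).continuousOn.mul (hcd.comp (by fun_prop) hmap)
  have hF : ∀ τ ∈ uIcc (0:ℝ) 1, HasDerivAt (fun τ => τ ^ (m + 1) * f (τ ^ 2 * s))
      ((m + 1) * (τ ^ m * f (τ ^ 2 * s)) + 2 * s * (τ ^ (m + 2) * deriv f (τ ^ 2 * s))) τ := by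
    intro τ hτ
    rw [uIcc_of_le zero_le_one] at hτ
    have h1 : HasDerivAt f (deriv f (τ ^ 2 * s)) (τ ^ 2 * s) :=
      ((hf.differentiableOn one_ne_zero).differentiableAt
        (isOpen_Ioo.mem_nhds (hmap hτ))).hasDerivAt
    have h2 : HasDerivAt (fun x => x ^ 2 * s) (2 * τ * s) τ := by
      simpa using (hasDerivAt_pow 2 τ).mul_const s
    exact ((hasDerivAt_pow (m + 1) τ).mul (h1.comp τ h2)).congr_deriv (by
      simp [pow_add]; ring)
  have i1 := (hc1.intervalIntegrable_of_Icc (μ := volume) zero_le_one).const_mul ((m:ℝ) + 1)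
  have i2 := (hc2.intervalIntegrable_of_Icc (μ := volume) zero_le_one).const_mul (2 * s)
  have := intervalIntegral.integral_eq_sub_of_hasDerivAt hF (i1.add i2)
  rw [intervalIntegral.integral_add i1 i2,
    intervalIntegral.integral_const_mul, intervalIntegral.integral_const_mul] at this
  simp only [one_pow, one_mul, zero_pow (Nat.succ_ne_zero m), zero_mul, sub_zero] at this
  simp only [avg]
  linarith

end Vale.Agent.P252
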