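import Mathlib

/-!
Symmetric matrices invariant under rotations fixing a vector x: inverse, determinant, positivity.
-/

namespace Vale.Agent.P252

open Matrix Finset

/-- The matrix with corner d, cross terms c x, and lower block a I + b x xᵀ. -/
def blk {k : ℕ} (x : Fin k → ℝ) (a b c d : ℝ) : Matrix (Fin (k + 1)) (Fin (k + 1)) ℝ :=
  Matrix.of (Fin.cases (Fin.cases d fun j => c * x j)
    fun i => Fin.cases (c * x i) fun j => (if i = j then a else 0) + b * x i * x j)

variable {k : ℕ} {x : Fin k → ℝ} {a b c d : ℝ}

@[simp] lemma blk_zero_zero : blk x a b c d 0 0 = d := rfl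
@[simp] lemma blk_zero_succ (j : Fin k) : blk x a b c d 0 j.succ = c * x j := rfl
@[simp] lemma blk_succ_zero (i : Fin k) : blk x a b c d i.succ 0 = c * x i := rfl
@[simp] lemma blk_succ_succ (i j : Fin k) :
    blk x a b c d i.succ j.succ = (if i = j then a else 0) + b * x i * x j := rfl

lemma blk_mul_eq_one {a' b' c' d' S : ℝ} (hS : ∑ i, x i ^ 2 = S)
    (h1 : d * d' + c * c' * S = 1) (h2 : d * c' + c * (a' + b' * S) = 0)
    (h3 : c * d' + (a + b * S) * c' = 0) (h4 : a * a' = 1)
    (h5 : c * c' + a * b' + b * a' + b * b' * S = 0) :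
    blk x a b c d * blk x a' b' c' d' = 1 := by
  have hS' : ∀ t : ℝ, ∑ l, t * (x l * x l) = t * S := fun t => by
    rw [← mul_sum, ← hS]; simp [sq]
  ext i j
  rw [Matrix.mul_apply, Fin.sum_univ_succ]
  induction i using Fin.cases with
  | zero =>
    induction j using Fin.cases with
    | zero =>
      simp only [blk_zero_zero, blk_zero_succ, blk_succ_zero, Matrix.one_apply_eq]
      rw [show (∑ l, c * x l * (c' * x l)) = ∑ l, (c * c') * (x l * x l) from
        sum_congr rfl fun l _ => by ring, hS']
      linarith
    | succ j =>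
      simp only [blk_zero_zero, blk_zero_succ, blk_succ_succ]
      rw [Matrix.one_apply_ne (Fin.succ_ne_zero j).symm,
        show (∑ l, c * x l * ((if l = j then a' else 0) + b' * x l * x j))
          = (∑ l, if l = j then c * x l * a' else 0) + ∑ l, (c * b' * x j) * (x l * x l) from by
            rw [← sum_add_distrib]; exact sum_congr rfl fun l _ => by split_ifs <;> ring,
        sum_ite_eq' univ j fun l => c * x l * a', hS', if_pos (mem_univ j)]
      linear_combination (x j) * h2
  | succ i =>
    induction j using Fin.cases with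
    | zero =>
      simp only [blk_zero_zero, blk_succ_zero, blk_succ_succ]
      rw [Matrix.one_apply_ne (Fin.succ_ne_zero i),
        show (∑ l, ((if i = l then a else 0) + b * x i * x l) * (c' * x l))
          = (∑ l, if i = l then a * (c' * x l) else 0) + ∑ l, (b * c' * x i) * (x l * x l) from by
            rw [← sum_add_distrib]; exact sum_congr rfl fun l _ => by split_ifs <;> ring,
        sum_ite_eq univ i fun l => a * (c' * x l), hS', if_pos (mem_univ i)]
      linear_combination (x i) * h3
    | succ j =>
      simp only [blk_succ_zero, blk_zero_succ, blk_succ_succ, Matrix.one_apply, Fin.succ_inj]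
      rw [show (∑ l, ((if i = l then a else 0) + b * x i * x l) *
            ((if l = j then a' else 0) + b' * x l * x j))
          = (∑ l, if i = l then a * ((if l = j then a' else 0) + b' * x l * x j) else 0)
            + ((∑ l, if l = j then b * x i * x l * a' else 0)
              + ∑ l, (b * b' * x i * x j) * (x l * x l)) from by
            rw [← sum_add_distrib, ← sum_add_distrib]
            exact sum_congr rfl fun l _ => by split_ifs <;> ring,
        sum_ite_eq univ i fun l => a * ((if l = j then a' else 0) + b' * x l * x j),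
        sum_ite_eq' univ j fun l => b * x i * x l * a', hS', if_pos (mem_univ i),
        if_pos (mem_univ j)]
      by_cases hij : i = j
      · subst hij
        simp only [if_true]
        linear_combination h4 + (x i * x i) * h5
      · simp only [if_neg hij]
        linear_combination (x i * x j) * h5

lemma blk_det {S : ℝ} (hS : ∑ i, x i ^ 2 = S) (hd : d ≠ 0) (ha : a ≠ 0) :
    (blk x a b c d).det = d * a ^ k * (1 + (b - c ^ 2 / d) / a * S) := by
  set t : ℝ := (b - c ^ 2 / d) / a with ht
  let Bm : Matrix (Fin (k + 1)) (Fin (k + 1)) ℝ := Matrix.of (Fin.cases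
    (Fin.cases d fun j => c * x j)
    fun i => Fin.cases 0 fun j => a * ((if i = j then 1 else 0) + t * x i * x j))
  have hrow : (blk x a b c d).det = Bm.det := by
    refine Matrix.det_eq_of_forall_row_eq_smul_add_const
      (Fin.cases 0 fun i => c * x i / d) 0 rfl fun i j => ?_
    induction i using Fin.cases with
    | zero => induction j using Fin.cases <;> simp [Bm]
    | succ i =>
      induction j using Fin.cases with
      | zero => simp [Bm]; field_simp
      | succ j => simp [Bm, ht]; split_ifs <;> field_simp <;> ring
  have hsub : Bm.submatrix (Fin.succAbove 0) Fin.succ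
      = a • (1 + Matrix.replicateCol (Fin 1) (fun i => t * x i) * Matrix.replicateRow (Fin 1) x) := by
    ext i j
    simp [Bm, Matrix.one_apply, Matrix.mul_apply]
  have hdot : x ⬝ᵥ (fun i => t * x i) = t * S := by
    rw [← hS, mul_sum]; exact sum_congr rfl fun i _ => by ring
  rw [hrow, Matrix.det_succ_column_zero, Fin.sum_univ_succ]
  have hz : ∀ i : Fin k, Bm i.succ 0 = 0 := fun i => rfl
  simp only [hz, mul_zero, zero_mul, sum_const_zero, add_zero, Fin.val_zero, pow_zero, one_mul,
    hsub, Matrix.det_smul, Fintype.card_fin]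
  rw [Matrix.det_one_add_mul_comm, Matrix.det_fin_one, Matrix.add_apply, Matrix.one_apply_eq,
    Matrix.replicateRow_mul_replicateCol_apply, hdot]
  show d * (a ^ k * (1 + t * S)) = _
  ring

lemma blk_posDef {S : ℝ} (hS : ∑ i, x i ^ 2 = S) (hd : 0 < d) (ha : 0 < a)
    (hq : 0 < a + (b - c ^ 2 / d) * S) : (blk x a b c d).PosDef := by
  refine Matrix.PosDef.of_dotProduct_mulVec_pos ?_ fun v hv => ?_
  · refine Matrix.IsHermitian.ext fun i j => ?_
    induction i using Fin.cases <;> induction j using Fin.cases <;>
      simp [eq_comm] <;> ring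
  simp only [star_trivial, dotProduct, Matrix.mulVec, Fin.sum_univ_succ, blk_zero_zero,
    blk_zero_succ, blk_succ_zero, blk_succ_succ]
  set T := ∑ i, x i * v i.succ with hT
  set W := ∑ i : Fin k, v i.succ ^ 2 with hW
  have key : v 0 * (d * v 0 + ∑ j, c * x j * v j.succ) +
      ∑ i, v i.succ * (c * x i * v 0 + ∑ j, ((if i = j then a else 0) + b * x i * x j) * v j.succ)
      = d * (v 0 + c / d * T) ^ 2 + a * W + (b - c ^ 2 / d) * T ^ 2 := by
    have e1 : ∑ j, c * x j * v j.succ = c * T := by
      rw [hT, mul_sum]; exact sum_congr rfl fun j _ => by ring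
    have e2 : ∀ i, ∑ j, ((if i = j then a else 0) + b * x i * x j) * v j.succ
        = a * v i.succ + b * x i * T := fun i => by
      rw [show (∑ j, ((if i = j then a else 0) + b * x i * x j) * v j.succ)
        = (∑ j, if i = j then a * v j.succ else 0) + ∑ j, b * x i * (x j * v j.succ) from by
          rw [← sum_add_distrib]; exact sum_congr rfl fun j _ => by split_ifs <;> ring,
        sum_ite_eq univ i fun j => a * v j.succ, ← mul_sum, ← hT, if_pos (mem_univ i)]
    simp only [e1, e2]
    rw [show (∑ i, v i.succ * (c * x i * v 0 + (a * v i.succ + b * x i * T)))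
      = ∑ i, ((c * v 0 + b * T) * (x i * v i.succ) + a * v i.succ ^ 2) from
        sum_congr rfl fun i _ => by ring, sum_add_distrib, ← mul_sum, ← mul_sum, ← hT, ← hW]
    field_simp
    ring
  rw [key]
  have hCS : T ^ 2 ≤ S * W := by rw [← hS]; exact sum_mul_sq_le_sq_mul_sq univ _ _
  have hW0 : 0 ≤ W := sum_nonneg fun i _ => sq_nonneg _
  rcases eq_or_lt_of_le hW0 with h | h
  · have hv' : ∀ i : Fin k, v i.succ = 0 := fun i => by
      have := (sum_eq_zero_iff_of_nonneg fun i _ => sq_nonneg (v i.succ)).1 h.symm i (mem_univ i)
      exact pow_eq_zero_iff two_ne_zero |>.1 this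
    have hv0 : v 0 ≠ 0 := fun h0 => hv (funext fun i => by
      induction i using Fin.cases with
      | zero => exact h0
      | succ i => exact hv' i)
    simp only [hT, hW, hv', mul_zero, sum_const_zero, add_zero, ne_eq, OfNat.ofNat_ne_zero,
      not_false_eq_true, zero_pow]
    positivity
  · have h1 : 0 ≤ d * (v 0 + c / d * T) ^ 2 := by positivity
    rcases le_total 0 (b - c ^ 2 / d) with hb | hb
    · have : 0 < a * W := mul_pos ha h
      nlinarith [mul_nonneg hb (sq_nonneg T)]
    · nlinarith [mul_pos hq h, mul_le_mul_of_nonpos_left hCS hb]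

end Vale.Agent.P252
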