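import Mathlib

/-!
The autonomous system for the profile of the boost invariant affine maximal graph,
written in the logarithmic variable t = log r, and its global solvability in a trapping box.
-/

namespace Vale.Agent.P252

open Set Filter Topology Real
open scoped NNReal ContDiff

/-- The vector field: a = r g'/g, c = r g''/g', k = -(g h')/(g' h). -/
noncomputable def field (N : ℝ) (p : ℝ × ℝ × ℝ) : ℝ × ℝ × ℝ :=
  (p.1 * (1 + p.2.1 - p.1),
    p.2.1 * ((N - 1) * (1 - p.2.1) + p.1 * (1 + (N + 2) / (N + 1) * p.2.2)),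
    (N + 1) * p.2.1 - (N - 1) * p.2.1 * p.2.2 + p.1 * p.2.2 * (1 + p.2.2))

/-- The trapping region. -/
def box : Set (ℝ × ℝ × ℝ) :=
  {p | 0 ≤ p.1 ∧ p.1 ≤ 9/2 ∧ 1 ≤ p.2.1 ∧ p.2.1 ≤ 7/2 ∧ 0 ≤ p.2.2 ∧
    p.2.2 ≤ 263/120 + p.2.1 - 9/20 * p.1}

/-- A retraction of space on the box. -/
noncomputable def retract (p : ℝ × ℝ × ℝ) : ℝ × ℝ × ℝ :=
  (max 0 (min p.1 (9/2)), max 1 (min p.2.1 (7/2)),
    max 0 (min p.2.2 (263/120 + max 1 (min p.2.1 (7/2)) - 9/20 * max 0 (min p.1 (9/2)))))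

lemma retract_mem (p : ℝ × ℝ × ℝ) : retract p ∈ box := by
  have h1 : (0:ℝ) ≤ max 0 (min p.1 (9/2)) := le_max_left _ _
  have h2 : max 0 (min p.1 (9/2)) ≤ (9/2 : ℝ) := max_le (by norm_num) (min_le_right _ _)
  have h3 : (1:ℝ) ≤ max 1 (min p.2.1 (7/2)) := le_max_left _ _
  have h4 : max 1 (min p.2.1 (7/2)) ≤ (7/2 : ℝ) := max_le (by norm_num) (min_le_right _ _)
  refine ⟨h1, h2, h3, h4, le_max_left _ _, ?_⟩
  simp only [retract]
  exact max_le (by linarith) (min_le_right _ _)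

lemma retract_of_mem {p : ℝ × ℝ × ℝ} (hp : p ∈ box) : retract p = p := by
  obtain ⟨h1, h2, h3, h4, h5, h6⟩ := hp
  simp [retract, min_eq_left h2, max_eq_right h1, min_eq_left h4, max_eq_right h3,
    min_eq_left h6, max_eq_right h5]

lemma retract_lipschitz : ∃ K, LipschitzWith K retract := by
  have h1 : LipschitzWith 1 (fun p : ℝ × ℝ × ℝ => max (0:ℝ) (min p.1 (9/2))) :=
    (LipschitzWith.prod_fst.min_const _).const_max _
  have hc : LipschitzWith (1 * 1) (fun p : ℝ × ℝ × ℝ => p.2.1) :=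
    LipschitzWith.prod_fst.comp LipschitzWith.prod_snd
  have h2 : LipschitzWith (1 * 1) (fun p : ℝ × ℝ × ℝ => max (1:ℝ) (min p.2.1 (7/2))) :=
    (hc.min_const _).const_max _
  have hk : LipschitzWith (1 * 1) (fun p : ℝ × ℝ × ℝ => p.2.2) :=
    LipschitzWith.prod_snd.comp LipschitzWith.prod_snd
  have hm := ((LipschitzWith.id (α := ℝ)).weaken (K' := 1) le_rfl)
  obtain ⟨L, hL⟩ : ∃ L, LipschitzWith L (fun p : ℝ × ℝ × ℝ =>
      263/120 + max (1:ℝ) (min p.2.1 (7/2)) - 9/20 * max 0 (min p.1 (9/2))) :=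
    ⟨_, (((LipschitzWith.const (263/120 : ℝ)).add h2).sub
      ((lipschitzWith_smul (9/20 : ℝ)).comp h1))⟩
  exact ⟨_, h1.prodMk (h2.prodMk ((hk.min hL).const_max 0))⟩

lemma trap_ten (a c k : ℝ) (ha : 0 ≤ a) (ha' : a ≤ 9/2) (hc : 1 ≤ c) (hc' : c ≤ 7/2)
    (hk : k = 263/120 + c - 9/20*a) :
    (11*c - 9*c*k + a*k*(1+k)) - c*(9*(1-c) + a*(1+12/11*k)) + 9/20*(a*(1+c-a)) ≤ 0 := by
  subst hk
  obtain ⟨u, rfl⟩ : ∃ u, a = 9/2 - u := ⟨9/2 - a, by ring⟩
  obtain ⟨v, rfl⟩ : ∃ v, c = 7/2 - v := ⟨7/2 - c, by ring⟩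
  have hu : 0 ≤ u := by linarith
  have hu' : u ≤ 9/2 := by linarith
  have hv : 0 ≤ v := by linarith
  have hv' : v ≤ 5/2 := by linarith
  have uni : (0:ℝ) ≤ 3 - 3386/1000*u + 547/1000*u^2 + 202/1000*u^3 + 41/100 := by
    nlinarith [sq_nonneg (u - 5/3), mul_nonneg hu (sq_nonneg (u - 5/3))]
  rcases le_total u (4/5) with h | h
  · nlinarith [mul_nonneg (sq_nonneg u) (sub_nonneg.2 hv'),
      mul_nonneg (mul_nonneg hu hv) (sub_nonneg.2 hv'), sq_nonneg (v - 2934/1000*u),
      mul_nonneg hu (sub_nonneg.2 h), mul_nonneg (sq_nonneg u) hu]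
  · nlinarith [mul_nonneg (sub_nonneg.2 hv') (sub_nonneg.2 h),
      mul_nonneg (mul_nonneg (sub_nonneg.2 hv') (sub_nonneg.2 hv')) (sub_nonneg.2 hu'),
      mul_nonneg (mul_nonneg (sub_nonneg.2 hv') (sub_nonneg.2 h)) hu]

/-- On the slanted face the field points inwards, for every real dimension at least ten. -/
lemma trap {N : ℝ} (hN : 10 ≤ N) (a c k : ℝ) (ha : 0 ≤ a) (ha' : a ≤ 9/2) (hc : 1 ≤ c)
    (hc' : c ≤ 7/2) (hk : k = 263/120 + c - 9/20*a) :
    (field N (a, c, k)).2.2 - (field N (a, c, k)).2.1 + 9/20 * (field N (a, c, k)).1 ≤ 0 := by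
  simp only [field]
  have hN1 : 0 < N + 1 := by linarith
  have hdiv : (N + 2) / (N + 1) = 12/11 - (N - 10) / (11 * (N + 1)) := by field_simp; ring
  have h10 := trap_ten a c k ha ha' hc hc' hk
  have hk' : 1/6 ≤ k - c := by linarith
  have hk0 : 0 ≤ k := by linarith
  have hck : a * k ≤ 33/2 := by
    rw [hk]
    nlinarith [mul_nonneg (sub_nonneg.2 ha') (sub_nonneg.2 hc'), mul_nonneg ha (sub_nonneg.2 hc')]
  have hfrac : (N - 10) / (11 * (N + 1)) ≤ (N - 10) / 121 :=
    div_le_div_of_nonneg_left (by linarith) (by norm_num) (by linarith)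
  have hprod : 0 ≤ a * c * k := mul_nonneg (mul_nonneg ha (by linarith)) hk0
  rw [hdiv]
  have h1 := mul_le_mul_of_nonneg_left hfrac hprod
  have h2 : 0 ≤ (N - 10) * c * ((k - c) - a * k / 121) := by
    apply mul_nonneg (mul_nonneg (by linarith) (by linarith))
    linarith
  nlinarith

lemma field_fst_top {N a c k : ℝ} (ha : a = 9/2) (hc : c ≤ 7/2) : (field N (a, c, k)).1 ≤ 0 := by
  simp only [field]
  nlinarith

lemma field_mid_top {N a c k : ℝ} (hN : 10 ≤ N) (ha : 0 ≤ a) (ha' : a ≤ 9/2) (hc : c = 7/2)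
    (hk : 0 ≤ k) (hk' : k ≤ 263/120 + c - 9/20 * a) : (field N (a, c, k)).2.1 ≤ 0 := by
  simp only [field]
  have hN1 : 0 < N + 1 := by linarith
  have hθ : (N + 2) / (N + 1) ≤ 12/11 := by
    rw [div_le_div_iff₀ hN1 (by norm_num)]; linarith
  subst hc
  apply mul_nonpos_of_nonneg_of_nonpos (by norm_num)
  have h1 : a * ((N + 2) / (N + 1) * k) ≤ a * (12/11 * k) :=
    mul_le_mul_of_nonneg_left (mul_le_mul_of_nonneg_right hθ hk) ha
  nlinarith [mul_le_mul_of_nonneg_left hk' ha, sq_nonneg (a - 9/2)]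

/-- A C¹ function with non-positive derivative wherever it is positive stays non-positive. -/
lemma nonpos_of_deriv {f : ℝ → ℝ} {f' : ℝ → ℝ} {t₀ t₁ : ℝ} (hle : t₀ ≤ t₁)
    (hc : ContinuousOn f (Icc t₀ t₁))
    (hd : ∀ t ∈ Ico t₀ t₁, HasDerivWithinAt f (f' t) (Ici t) t)
    (h0 : f t₀ ≤ 0) (hb : ∀ t ∈ Ico t₀ t₁, 0 < f t → f' t ≤ 0) :
    f t₁ ≤ 0 := by
  refine le_of_forall_pos_le_add fun ε hε => ?_
  have := image_le_of_deriv_right_lt_deriv_boundary hc hd
    (B := fun t => ε / (t₁ - t₀ + 1) * (t - t₀ + 1)) (B' := fun _ => ε / (t₁ - t₀ + 1))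
    (by
      have : (0:ℝ) < ε / (t₁ - t₀ + 1) := div_pos hε (by linarith)
      simp only [sub_self, zero_add, mul_one]; linarith)
    (fun t => by simpa using ((((hasDerivAt_id t).sub_const t₀).add_const 1).const_mul _))
    (fun t ht heq => by
      have hpos : (0:ℝ) < ε / (t₁ - t₀ + 1) := div_pos hε (by linarith)
      have : 0 < f t := by rw [heq]; exact mul_pos hpos (by linarith [ht.1])
      linarith [hb t ht this])
    (x := t₁) ⟨hle, le_rfl⟩
  simpa [div_mul_cancel₀, (by linarith : t₁ - t₀ + 1 ≠ 0)] using this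

/-- Global existence in the box, with uniqueness against any other solution in the box. -/
theorem exists_box_solution {N : ℝ} (hN : 10 ≤ N) (t₀ : ℝ) {p₀ : ℝ × ℝ × ℝ} (hp : p₀ ∈ box) :
    ∃ y : ℝ → ℝ × ℝ × ℝ, y t₀ = p₀ ∧
      (∀ t, t₀ < t → HasDerivAt y (field N (y t)) t) ∧
      (∀ t, t₀ ≤ t → y t ∈ box) ∧
      ContDiffOn ℝ ∞ y (Ioi t₀) ∧
      ∀ z : ℝ → ℝ × ℝ × ℝ, ∀ t₁, z t₀ = p₀ →
        (∀ t ∈ Icc t₀ t₁, HasDerivAt z (field N (z t)) t) →
        (∀ t ∈ Icc t₀ t₁, z t ∈ box) → ∀ t ∈ Icc t₀ t₁, z t = y t := by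
  set V : ℝ × ℝ × ℝ → ℝ × ℝ × ℝ := fun p => field N (retract p) with hVdef
  have hfs : ContDiff ℝ ∞ (field N) := by
    unfold field; fun_prop
  -- boundedness and Lipschitz continuity of the truncated field
  obtain ⟨Kr, hKr⟩ := retract_lipschitz
  have hsub : box ⊆ Metric.closedBall (0 : ℝ × ℝ × ℝ) 10 := by
    rintro ⟨a, c, k⟩ ⟨h1, h2, h3, h4, h5, h6⟩
    simp only [Metric.mem_closedBall, dist_zero_right, Prod.norm_def, Real.norm_eq_abs, max_le_iff,
      abs_le]
    simp only at h1 h2 h3 h4 h5 h6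
    refine ⟨⟨by linarith, by linarith⟩, ⟨by linarith, by linarith⟩, by linarith, by linarith⟩
  obtain ⟨Kf, hKf⟩ := (hfs.contDiffOn (s := Metric.closedBall 0 10)).exists_lipschitzOnWith
    (by simp) (convex_closedBall _ _) (isCompact_closedBall _ _)
  have hVl : LipschitzWith (Kf * Kr) V :=
    lipschitzOnWith_univ.1 (hKf.comp hKr.lipschitzOnWith fun p _ => hsub (retract_mem p))
  obtain ⟨B, hB⟩ := (isCompact_closedBall (0 : ℝ × ℝ × ℝ) 10).exists_bound_of_continuousOn
    hfs.continuous.continuousOn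
  have hVb : ∀ p, ‖V p‖ ≤ |B| := fun p => (hB _ (hsub (retract_mem p))).trans (le_abs_self B)
  -- solutions on bounded intervals
  have hex : ∀ i : ℕ, ∃ y : ℝ → ℝ × ℝ × ℝ, y t₀ = p₀ ∧
      ∀ t ∈ Icc t₀ (t₀ + (i + 1)), HasDerivWithinAt y (V (y t)) (Icc t₀ (t₀ + (i + 1))) t := by
    intro i
    have hi : (0:ℝ) ≤ i + 1 := by positivity
    exact IsPicardLindelof.exists_eq_forall_mem_Icc_hasDerivWithinAt₀ (f := fun _ => V)
      (t₀ := ⟨t₀, le_rfl, by linarith⟩) (x₀ := p₀)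
      (a := ⟨|B| * (i + 1), mul_nonneg (abs_nonneg _) hi⟩) (L := ⟨|B|, abs_nonneg _⟩) (K := Kf * Kr)
      (IsPicardLindelof.of_time_independent (fun x _ => hVb x) hVl.lipschitzOnWith (by
        show |B| * max (t₀ + (i + 1) - t₀) (t₀ - t₀) ≤ |B| * (i + 1) - 0
        simp [max_eq_left hi]))
  choose Y hY0 hY using hex
  have hRight : ∀ i : ℕ, ∀ t ∈ Ico t₀ (t₀ + (i + 1)),
      HasDerivWithinAt (Y i) (V (Y i t)) (Ici t) t := fun i t ht =>
    (hY i t (Ico_subset_Icc_self ht)).mono_of_mem_nhdsWithin (Icc_mem_nhdsGE_of_mem ht)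
  have hagree : ∀ i j : ℕ, i ≤ j → ∀ t ∈ Icc t₀ (t₀ + (i + 1)), Y i t = Y j t := by
    intro i j hij
    have hij' : t₀ + ((i:ℝ) + 1) ≤ t₀ + (j + 1) := by
      have : (i:ℝ) ≤ j := by exact_mod_cast hij
      linarith
    exact ODE_solution_unique (v := fun _ => V) (fun _ => hVl)
      (HasDerivWithinAt.continuousOn (hY i)) (hRight i)
      ((HasDerivWithinAt.continuousOn (hY j)).mono (Icc_subset_Icc le_rfl hij'))
      (fun t ht => hRight j t ⟨ht.1, lt_of_lt_of_le ht.2 hij'⟩) (by rw [hY0, hY0])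
  -- the box is forward invariant
  have hbox : ∀ i : ℕ, ∀ t ∈ Icc t₀ (t₀ + (i + 1)), Y i t ∈ box := by
    intro i t ht
    have hcont : ContinuousOn (Y i) (Icc t₀ t) :=
      (HasDerivWithinAt.continuousOn (hY i)).mono (Icc_subset_Icc le_rfl ht.2)
    have hder : ∀ x ∈ Ico t₀ t, HasDerivWithinAt (Y i) (V (Y i x)) (Ici x) x := fun x hx =>
      hRight i x ⟨hx.1, lt_of_lt_of_le hx.2 ht.2⟩
    have hF : ∀ x ∈ Ico t₀ t, HasDerivWithinAt (fun s => (Y i s).1) (V (Y i x)).1 (Ici x) x :=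
      fun x hx => ((ContinuousLinearMap.fst ℝ ℝ (ℝ × ℝ)).hasFDerivAt.comp_hasDerivWithinAt x
        (hder x hx))
    have hM : ∀ x ∈ Ico t₀ t, HasDerivWithinAt (fun s => (Y i s).2.1) (V (Y i x)).2.1 (Ici x) x :=
      fun x hx => (((ContinuousLinearMap.fst ℝ ℝ ℝ).comp
        (ContinuousLinearMap.snd ℝ ℝ (ℝ × ℝ))).hasFDerivAt.comp_hasDerivWithinAt x (hder x hx))
    have hT : ∀ x ∈ Ico t₀ t, HasDerivWithinAt (fun s => (Y i s).2.2) (V (Y i x)).2.2 (Ici x) x :=
      fun x hx => (((ContinuousLinearMap.snd ℝ ℝ ℝ).comp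
        (ContinuousLinearMap.snd ℝ ℝ (ℝ × ℝ))).hasFDerivAt.comp_hasDerivWithinAt x (hder x hx))
    have hsubI : ∀ x ∈ Icc t₀ t, Icc t₀ x ⊆ Icc t₀ t := fun x hx => Icc_subset_Icc le_rfl hx.2
    have hp0 := hp
    rw [← hY0 i] at hp0
    obtain ⟨q1, q2, q3, q4, q5, q6⟩ := hp0
    have cF := continuous_fst.comp_continuousOn hcont
    have cM := continuous_fst.comp_continuousOn (continuous_snd.comp_continuousOn hcont)
    have cT := continuous_snd.comp_continuousOn (continuous_snd.comp_continuousOn hcont)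
    have hr := fun x => retract_mem (Y i x)
    have hN1 : 0 < N + 1 := by linarith
    have A0 : ∀ x ∈ Icc t₀ t, 0 ≤ (Y i x).1 := by
      intro x hx
      have hsubx : Ico t₀ x ⊆ Ico t₀ t := Ico_subset_Ico le_rfl hx.2
      have := nonpos_of_deriv (f := fun s => -(Y i s).1) (f' := fun s => -(V (Y i s)).1) hx.1
        (cF.mono (hsubI x hx)).neg (fun s hs => (hF s (hsubx hs)).neg) (by linarith) (by
          intro s _ hpos
          have : (retract (Y i s)).1 = 0 := by
            simp only [retract]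
            exact max_eq_left ((min_le_left _ _).trans (by linarith))
          simp [V, field, this])
      linarith
    have C0 : ∀ x ∈ Icc t₀ t, 1 ≤ (Y i x).2.1 := by
      intro x hx
      have hsubx : Ico t₀ x ⊆ Ico t₀ t := Ico_subset_Ico le_rfl hx.2
      have := nonpos_of_deriv (f := fun s => 1 - (Y i s).2.1) (f' := fun s => -(V (Y i s)).2.1) hx.1
        (continuousOn_const.sub (cM.mono (hsubI x hx))) (fun s hs => (hM s (hsubx hs)).const_sub 1)
        (by linarith) (by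
          intro s _ hpos
          have he : (retract (Y i s)).2.1 = 1 := by
            simp only [retract]
            exact max_eq_left ((min_le_left _ _).trans (by linarith))
          obtain ⟨r1, -, -, -, r5, -⟩ := hr s
          simp only [V, field, he, sub_self, mul_zero, zero_add, one_mul, neg_nonpos]
          positivity)
      linarith
    have K0 : ∀ x ∈ Icc t₀ t, 0 ≤ (Y i x).2.2 := by
      intro x hx
      have hsubx : Ico t₀ x ⊆ Ico t₀ t := Ico_subset_Ico le_rfl hx.2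
      have := nonpos_of_deriv (f := fun s => -(Y i s).2.2) (f' := fun s => -(V (Y i s)).2.2) hx.1
        (cT.mono (hsubI x hx)).neg (fun s hs => (hT s (hsubx hs)).neg) (by linarith) (by
          intro s _ hpos
          have he : (retract (Y i s)).2.2 = 0 := by
            simp only [retract]
            exact max_eq_left ((min_le_left _ _).trans (by linarith))
          obtain ⟨-, -, r3, -, -, -⟩ := hr s
          simp only [V, field, he, mul_zero, zero_mul, sub_zero, add_zero, neg_nonpos]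
          exact mul_nonneg hN1.le (by linarith))
      linarith
    have A1 : ∀ x ∈ Icc t₀ t, (Y i x).1 ≤ 9/2 := by
      intro x hx
      have hsubx : Ico t₀ x ⊆ Ico t₀ t := Ico_subset_Ico le_rfl hx.2
      have := nonpos_of_deriv (f := fun s => (Y i s).1 - 9/2) (f' := fun s => (V (Y i s)).1) hx.1
        ((cF.mono (hsubI x hx)).sub continuousOn_const) (fun s hs => (hF s (hsubx hs)).sub_const _)
        (by linarith) (by
          intro s _ hpos
          have he : (retract (Y i s)).1 = 9/2 := by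
            simp only [retract]
            rw [min_eq_right (by linarith)]; norm_num
          exact field_fst_top he (hr s).2.2.2.1)
      linarith
    have C1 : ∀ x ∈ Icc t₀ t, (Y i x).2.1 ≤ 7/2 := by
      intro x hx
      have hsubx : Ico t₀ x ⊆ Ico t₀ t := Ico_subset_Ico le_rfl hx.2
      have := nonpos_of_deriv (f := fun s => (Y i s).2.1 - 7/2) (f' := fun s => (V (Y i s)).2.1)
        hx.1 ((cM.mono (hsubI x hx)).sub continuousOn_const)
        (fun s hs => (hM s (hsubx hs)).sub_const _)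
        (by linarith) (by
          intro s _ hpos
          have he : (retract (Y i s)).2.1 = 7/2 := by
            simp only [retract]
            rw [min_eq_right (by linarith)]; norm_num
          obtain ⟨r1, r2, -, -, r5, r6⟩ := hr s
          exact field_mid_top hN r1 r2 he r5 r6)
      linarith
    have K1 : (Y i t).2.2 - (Y i t).2.1 + 9/20 * (Y i t).1 - 263/120 ≤ 0 := by
      refine nonpos_of_deriv (f := fun s => (Y i s).2.2 - (Y i s).2.1 + 9/20 * (Y i s).1 - 263/120)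
        (f' := fun s => (V (Y i s)).2.2 - (V (Y i s)).2.1 + 9/20 * (V (Y i s)).1) ht.1
        (((cT.sub cM).add (continuousOn_const.mul cF)).sub continuousOn_const)
        (fun s hs => (((hT s hs).sub (hM s hs)).add ((hF s hs).const_mul _)).sub_const _)
        (by linarith) ?_
      intro s hs hpos
      have hsI := Ico_subset_Icc_self hs
      have e1 : (retract (Y i s)).1 = (Y i s).1 := by
        simp [retract, min_eq_left (A1 s hsI), max_eq_right (A0 s hsI)]
      have e2 : (retract (Y i s)).2.1 = (Y i s).2.1 := by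
        simp [retract, min_eq_left (C1 s hsI), max_eq_right (C0 s hsI)]
      have e3 : (retract (Y i s)).2.2 = 263/120 + (Y i s).2.1 - 9/20 * (Y i s).1 := by
        simp only [retract, min_eq_left (A1 s hsI), max_eq_right (A0 s hsI),
          min_eq_left (C1 s hsI), max_eq_right (C0 s hsI)]
        rw [min_eq_right (by linarith)]
        exact max_eq_right (by linarith [A1 s hsI, C0 s hsI])
      exact trap hN (retract (Y i s)).1 (retract (Y i s)).2.1 (retract (Y i s)).2.2 (hr s).1 (hr s).2.1 (hr s).2.2.1 (hr s).2.2.2.1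
        (by rw [e1, e2, e3])
    have hI : t ∈ Icc t₀ t := ⟨ht.1, le_rfl⟩
    exact ⟨A0 t hI, A1 t hI, C0 t hI, C1 t hI, K0 t hI, by linarith⟩
  let y : ℝ → ℝ × ℝ × ℝ := fun t => Y ⌈t - t₀⌉₊ t
  have hy : ∀ i : ℕ, ∀ t ∈ Icc t₀ (t₀ + (i + 1)), y t = Y i t := by
    intro i t ht
    have h1 : t ∈ Icc t₀ (t₀ + (⌈t - t₀⌉₊ + 1)) := ⟨ht.1, by linarith [Nat.le_ceil (t - t₀)]⟩
    rcases le_total ⌈t - t₀⌉₊ i with h | h
    · exact hagree _ _ h t h1
    · exact (hagree _ _ h t ht).symm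
  have hderiv : ∀ t, t₀ < t → HasDerivAt y (field N (y t)) t := by
    intro t ht
    obtain ⟨i, hi⟩ := exists_nat_gt (t - t₀)
    have hm : t ∈ Ioo t₀ (t₀ + (i + 1)) := ⟨ht, by linarith⟩
    have hn : Icc t₀ (t₀ + (i + 1)) ∈ 𝓝 t := Icc_mem_nhds hm.1 hm.2
    have h := (hY i t (Ioo_subset_Icc_self hm)).hasDerivAt hn
    rw [hy i t (Ioo_subset_Icc_self hm)]
    have hV : V (Y i t) = field N (Y i t) := by
      simp only [V, retract_of_mem (hbox i t (Ioo_subset_Icc_self hm))]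
    rw [← hV]
    exact h.congr_of_eventuallyEq (Filter.eventually_of_mem hn fun s hs => hy i s hs)
  refine ⟨y, ?_, hderiv, ?_, ?_, ?_⟩
  · rw [hy 0 t₀ ⟨le_rfl, by simp⟩]; exact hY0 0
  · intro t ht
    obtain ⟨i, hi⟩ := exists_nat_gt (t - t₀)
    have hm : t ∈ Icc t₀ (t₀ + (i + 1)) := ⟨ht, by linarith⟩
    rw [hy i t hm]; exact hbox i t hm
  · intro t ht
    have ht' : t₀ < t := ht
    obtain ⟨l, hl, hl'⟩ := exists_between ht'
    have hc : ContDiffOn ℝ ∞ y (Icc l (t + 1)) :=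
      ODE.contDiffOn_enat_Icc_of_hasDerivWithinAt (f := fun _ => field N) (u := univ) (n := ⊤)
        (hfs.comp contDiff_snd).contDiffOn
        (fun s hs => (hderiv s (hl.trans_le hs.1)).hasDerivWithinAt) (mapsTo_univ _ _)
    exact (hc.contDiffAt (Icc_mem_nhds hl' (by linarith))).contDiffWithinAt
  · intro z t₁ hz0 hz hzb t ht
    obtain ⟨i, hi⟩ := exists_nat_gt (t₁ - t₀)
    have hle : Icc t₀ t₁ ⊆ Icc t₀ (t₀ + (i + 1)) := Icc_subset_Icc le_rfl (by linarith)
    rw [hy i t (hle ht)]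
    refine ODE_solution_unique (v := fun _ => V) (fun _ => hVl)
      (HasDerivAt.continuousOn hz) (fun s hs => ?_)
      ((HasDerivWithinAt.continuousOn (hY i)).mono hle)
      (fun s hs => hRight i s ⟨hs.1, lt_of_lt_of_le hs.2 (by linarith)⟩) (by rw [hz0, hY0]) ht
    have hsI := Ico_subset_Icc_self hs
    simpa only [V, retract_of_mem (hzb s hsI)] using (hz s hsI).hasDerivWithinAt

end Vale.Agent.P252
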