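import Mathlib

/-!
Partial derivatives, Hessian and the affine maximal equation on Euclidean space.
-/

namespace Vale.Agent.P252

open scoped ContDiff

/-- The partial derivative of f in the i-th coordinate direction at z. -/
noncomputable def pd {n : ℕ} (f : EuclideanSpace ℝ (Fin n) → ℝ) (i : Fin n)
    (z : EuclideanSpace ℝ (Fin n)) : ℝ :=
  fderiv ℝ f z (EuclideanSpace.single i 1)

/-- The Hessian matrix D²f at z. -/
noncomputable def hess {n : ℕ} (f : EuclideanSpace ℝ (Fin n) → ℝ)
    (z : EuclideanSpace ℝ (Fin n)) : Matrix (Fin n) (Fin n) ℝ :=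
  Matrix.of fun i j => pd (pd f j) i z

/-- The weight w = (det D²u) ^ (-(n+1)/(n+2)). -/
noncomputable def affW {n : ℕ} (u : EuclideanSpace ℝ (Fin n) → ℝ)
    (z : EuclideanSpace ℝ (Fin n)) : ℝ :=
  (hess u z).det ^ (-(((n : ℝ) + 1) / ((n : ℝ) + 2)))

end Vale.Agent.P252
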