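import Mathlib
import Vale.Agent.P252.Average

/-!
The profile near the axis, in the variable s = r²/2, by a contraction argument.
-/

namespace Vale.Agent.P252

open Set Filter Topology Real BoundedContinuousFunction
open scoped NNReal ContDiff

/-- Coordinatewise clamp to the closed square with centre (c, c) and half side ρ. -/
noncomputable def clampSq (c ρ : ℝ) (p : ℝ × ℝ) : ℝ × ℝ :=
  (max (c - ρ) (min p.1 (c + ρ)), max (c - ρ) (min p.2 (c + ρ)))

lemma clampSq_mem {c ρ : ℝ} (hρ : 0 ≤ ρ) (p : ℝ × ℝ) :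
    clampSq c ρ p ∈ Icc (c - ρ) (c + ρ) ×ˢ Icc (c - ρ) (c + ρ) :=
  ⟨⟨le_max_left _ _, max_le (by linarith) (min_le_right _ _)⟩,
    ⟨le_max_left _ _, max_le (by linarith) (min_le_right _ _)⟩⟩

lemma clampSq_eq {c ρ : ℝ} {p : ℝ × ℝ} (h1 : |p.1 - c| ≤ ρ) (h2 : |p.2 - c| ≤ ρ) :
    clampSq c ρ p = p := by
  rw [abs_le] at h1 h2
  simp [clampSq, min_eq_left (by linarith : p.1 ≤ c + ρ), min_eq_left (by linarith : p.2 ≤ c + ρ),
    max_eq_right (by linarith : c - ρ ≤ p.1), max_eq_right (by linarith : c - ρ ≤ p.2)]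

lemma clampSq_lip (c ρ : ℝ) : LipschitzWith (max 1 1) (clampSq c ρ) :=
  ((LipschitzWith.prod_fst.min_const _).const_max _).prodMk
    ((LipschitzWith.prod_snd.min_const _).const_max _)

/-- A C¹ map on a square, composed with the clamp, is bounded and globally Lipschitz. -/
lemma clamp_comp {c ρ : ℝ} (hρ : 0 ≤ ρ) {F : ℝ × ℝ → ℝ × ℝ}
    (hF : ContDiffOn ℝ 1 F (Icc (c - ρ) (c + ρ) ×ˢ Icc (c - ρ) (c + ρ))) :
    ∃ K : ℝ≥0, LipschitzWith K (F ∘ clampSq c ρ) ∧ ∃ B, ∀ p, ‖F (clampSq c ρ p)‖ ≤ B := by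
  have hK : IsCompact (Icc (c - ρ) (c + ρ) ×ˢ Icc (c - ρ) (c + ρ)) :=
    isCompact_Icc.prod isCompact_Icc
  obtain ⟨K, hKF⟩ := hF.exists_lipschitzOnWith one_ne_zero
    ((convex_Icc _ _).prod (convex_Icc _ _)) hK
  obtain ⟨B, hB⟩ := hK.exists_bound_of_continuousOn hF.continuousOn
  exact ⟨_, lipschitzOnWith_univ.1
    (hKF.comp (clampSq_lip c ρ).lipschitzOnWith fun p _ => clampSq_mem hρ p),
    B, fun p => hB _ (clampSq_mem hρ p)⟩

/-- The two sources: g h^(-1/θ) and h^(-1/(n+1)), with n = m + 2. -/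
noncomputable def src (m : ℕ) (p : ℝ × ℝ) : ℝ × ℝ :=
  (p.1 * p.2 ^ (-(((m:ℝ) + 4) / ((m:ℝ) + 3))), p.2 ^ (-(1 / ((m:ℝ) + 3))))

/-- The two derivatives (G', H') in terms of the two averages. -/
noncomputable def rate (m : ℕ) (p : ℝ × ℝ) : ℝ × ℝ :=
  ((((m:ℝ) + 1) * p.1) ^ (((m + 1 : ℕ) : ℝ)⁻¹),
    -((m:ℝ) + 3) * p.2 / ((((m:ℝ) + 1) * p.1) ^ (((m + 1 : ℕ) : ℝ)⁻¹)) ^ m)

lemma src_contDiffAt {m : ℕ} {p : ℝ × ℝ} {k : WithTop ℕ∞} (hp : p.2 ≠ 0) :
    ContDiffAt ℝ k (src m) p :=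
  (contDiffAt_fst.mul (contDiffAt_snd.rpow_const_of_ne hp)).prodMk
    (contDiffAt_snd.rpow_const_of_ne hp)

lemma rate_contDiffAt {m : ℕ} {p : ℝ × ℝ} {k : WithTop ℕ∞} (hp : 0 < p.1) :
    ContDiffAt ℝ k (rate m) p := by
  have hb : 0 < ((m:ℝ) + 1) * p.1 := by positivity
  have hr : ContDiffAt ℝ k
      (fun q : ℝ × ℝ => (((m:ℝ) + 1) * q.1) ^ (((m + 1 : ℕ) : ℝ)⁻¹)) p :=
    (contDiffAt_const.mul contDiffAt_fst).rpow_const_of_ne hb.ne'
  exact hr.prodMk ((contDiffAt_const.mul contDiffAt_snd).div (hr.pow m)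
    (pow_ne_zero _ (Real.rpow_pos_of_pos hb _).ne'))

/-- The fixed point in the contraction argument. -/
lemma local_fixed_point (m : ℕ) :
    ∃ δ : ℝ, 0 < δ ∧ ∃ G H : ℝ → ℝ, Continuous G ∧ Continuous H ∧ G 0 = 1 ∧ H 0 = 1 ∧
      ∀ s ∈ Ioo (-δ) δ, 1/2 ≤ G s ∧ 1/2 ≤ H s ∧
        0 < avg m (fun x => (src m (G x, H x)).1) s ∧
        HasDerivAt G (rate m (avg m (fun x => (src m (G x, H x)).1) s,
          avg m (fun x => (src m (G x, H x)).2) s)).1 s ∧
        HasDerivAt H (rate m (avg m (fun x => (src m (G x, H x)).1) s,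
          avg m (fun x => (src m (G x, H x)).2) s)).2 s := by
  set c : ℝ := 1 / ((m:ℝ) + 1) with hcdef
  have hc : 0 < c := by positivity
  obtain ⟨Kp, hKp, -⟩ := clamp_comp (c := 1) (ρ := 1/2) (F := src m) (by norm_num)
    (fun p hp => (src_contDiffAt (by
      have : (1:ℝ) - 1/2 ≤ p.2 := hp.2.1
      exact ne_of_gt (by linarith))).contDiffWithinAt)
  obtain ⟨Kr, hKr, B, hB⟩ := clamp_comp (c := c) (ρ := c/2) (F := rate m) (by linarith)
    (fun p hp => (rate_contDiffAt (by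
      have : c - c/2 ≤ p.1 := hp.1.1
      linarith)).contDiffWithinAt)
  set φ := src m ∘ clampSq 1 (1/2) with hφdef
  set R := rate m ∘ clampSq c (c/2) with hRdef
  have hB0 : 0 ≤ B := (norm_nonneg _).trans (hB 0)
  set D : ℝ := (Kr * Kp + 1) + (B + 1) * (2 + (Kp + 1) * (2 / c)) with hDdef
  have hD : 0 < D := by positivity
  set δ : ℝ := 1 / (2 * D) with hδdef
  have hδ : 0 < δ := by positivity
  have hδD : δ * D = 1/2 := by rw [hδdef]; field_simp
  let pr : ℝ → ℝ := fun s => max (-δ) (min s δ)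
  have hpr : ∀ s, |pr s| ≤ δ := fun s => abs_le.2
    ⟨le_max_left _ _, max_le (by linarith) (min_le_right _ _)⟩
  let Z : (ℝ →ᵇ ℝ × ℝ) → ℝ → ℝ × ℝ := fun X s =>
    R (avg m (fun x => (φ (X x)).1) s, avg m (fun x => (φ (X x)).2) s)
  have hZc : ∀ X, Continuous (Z X) := fun X =>
    hKr.continuous.comp
      ((avg_continuous m (continuous_fst.comp (hKp.continuous.comp X.continuous))).prodMk
        (avg_continuous m (continuous_snd.comp (hKp.continuous.comp X.continuous))))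
  have hbd : ∀ X s, ‖∫ σ in (0:ℝ)..pr s, Z X σ‖ ≤ B * δ := fun X s => by
    refine (intervalIntegral.norm_integral_le_of_norm_le_const (f := Z X) (C := B)
      fun σ _ => hB _).trans ?_
    simpa using mul_le_mul_of_nonneg_left (hpr s) hB0
  have hTc : ∀ X, Continuous fun s => ((1:ℝ),(1:ℝ)) + ∫ σ in (0:ℝ)..pr s, Z X σ := fun X =>
    continuous_const.add ((intervalIntegral.continuous_primitive
      (fun a b => (hZc X).intervalIntegrable a b) 0).comp (by fun_prop))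
  let T : (ℝ →ᵇ ℝ × ℝ) → (ℝ →ᵇ ℝ × ℝ) := fun X =>
    BoundedContinuousFunction.ofNormedAddCommGroup _ (hTc X) (‖((1:ℝ),(1:ℝ))‖ + B * δ)
      fun s => (norm_add_le _ _).trans (add_le_add_right (hbd X s) _)
  have hTX : ∀ X s, T X s = ((1:ℝ),(1:ℝ)) + ∫ σ in (0:ℝ)..pr s, Z X σ := fun X s => rfl
  have hlip : ∀ X Y, dist (T X) (T Y) ≤ (δ * (Kr * Kp)) * dist X Y := by
    intro X Y
    refine (BoundedContinuousFunction.dist_le (by positivity)).2 fun s => ?_
    rw [hTX, hTX, dist_add_left, dist_eq_norm, ← intervalIntegral.integral_sub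
      ((hZc X).intervalIntegrable _ _) ((hZc Y).intervalIntegrable _ _)]
    refine (intervalIntegral.norm_integral_le_of_norm_le_const
      (f := fun σ => Z X σ - Z Y σ) (C := Kr * (Kp * dist X Y)) fun σ _ => ?_).trans ?_
    · rw [← dist_eq_norm]
      refine (hKr.dist_le_mul _ _).trans (mul_le_mul_of_nonneg_left ?_ Kr.2)
      have hpt : ∀ x, dist (φ (X x)) (φ (Y x)) ≤ Kp * dist X Y := fun x =>
        (hKp.dist_le_mul _ _).trans
          (mul_le_mul_of_nonneg_left (BoundedContinuousFunction.dist_coe_le_dist x) Kp.2)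
      rw [Prod.dist_eq, max_le_iff, Real.dist_eq, Real.dist_eq]
      constructor
      · exact avg_dist m (continuous_fst.comp (hKp.continuous.comp X.continuous))
          (continuous_fst.comp (hKp.continuous.comp Y.continuous))
          (fun x => by
            have := hpt x
            rw [Prod.dist_eq, max_le_iff, Real.dist_eq, Real.dist_eq] at this
            exact this.1) σ
      · exact avg_dist m (continuous_snd.comp (hKp.continuous.comp X.continuous))
          (continuous_snd.comp (hKp.continuous.comp Y.continuous))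
          (fun x => by
            have := hpt x
            rw [Prod.dist_eq, max_le_iff, Real.dist_eq, Real.dist_eq] at this
            exact this.2) σ
    · rw [sub_zero]
      calc (Kr:ℝ) * (Kp * dist X Y) * |pr s| ≤ (Kr:ℝ) * (Kp * dist X Y) * δ :=
            mul_le_mul_of_nonneg_left (hpr s) (by positivity)
        _ = δ * (Kr * Kp) * dist X Y := by ring
  have hlt : δ * (Kr * Kp) < 1 := by
    have : (Kr:ℝ) * Kp ≤ D := by
      have h0 : 0 ≤ (B + 1) * (2 + ((Kp:ℝ) + 1) * (2 / c)) := by positivity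
      linarith [hDdef]
    nlinarith [mul_le_mul_of_nonneg_left this hδ.le]
  let Kc : ℝ≥0 := ⟨δ * (Kr * Kp), by positivity⟩
  have hcw : ContractingWith Kc T :=
    ⟨by exact_mod_cast hlt, LipschitzWith.of_dist_le_mul hlip⟩
  let X := ContractingWith.fixedPoint T hcw
  have hX : ∀ s, X s = ((1:ℝ),(1:ℝ)) + ∫ σ in (0:ℝ)..pr s, Z X σ := fun s => by
    rw [← hTX]; rw [hcw.fixedPoint_isFixedPt]
  -- the clamps are inactive
  have hXnear : ∀ s, dist (X s) ((1:ℝ),(1:ℝ)) ≤ B * δ := fun s => by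
    rw [hX s, dist_eq_norm, add_sub_cancel_left]; exact hbd X s
  have hBδ : B * δ ≤ 1/4 := by
    have : 2 * B ≤ D := by
      have h0 : 0 ≤ (B + 1) * (((Kp:ℝ) + 1) * (2 / c)) := by positivity
      have h1 : (0:ℝ) ≤ Kr * Kp := by positivity
      nlinarith [hDdef]
    nlinarith [mul_le_mul_of_nonneg_left this hδ.le]
  have hKBδ : Kp * (B * δ) ≤ c / 4 := by
    have : (Kp:ℝ) * B * (2 / c) ≤ D := by
      have h1 : (0:ℝ) ≤ Kr * Kp := by positivity
      have h2 : 0 ≤ 2 / c := by positivity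
      nlinarith [hDdef, mul_nonneg (mul_nonneg Kp.2 h2) zero_le_one, mul_nonneg hB0 h2]
    have := mul_le_mul_of_nonneg_left this hδ.le
    rw [hδD] at this
    field_simp at this
    nlinarith
  have hclamp : ∀ x, φ (X x) = src m (X x) := fun x => by
    have h := (hXnear x).trans hBδ
    rw [Prod.dist_eq, max_le_iff, Real.dist_eq, Real.dist_eq] at h
    simp only [φ, Function.comp]
    rw [clampSq_eq (by linarith [h.1]) (by linarith [h.2])]
  have hone : φ (1, 1) = (1, 1) := by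
    simp only [φ, Function.comp]
    rw [clampSq_eq (by norm_num) (by norm_num)]
    simp [src]
  have havg1 : ∀ s, avg m (fun _ => (1:ℝ)) s = c := fun s => by
    simp [avg, integral_pow, c]
  have hnear : ∀ x, |(φ (X x)).1 - 1| ≤ Kp * (B * δ) ∧ |(φ (X x)).2 - 1| ≤ Kp * (B * δ) := fun x => by
    have h := (hKp.dist_le_mul (X x) (1, 1)).trans (mul_le_mul_of_nonneg_left (hXnear x) Kp.2)
    rw [hone, Prod.dist_eq, max_le_iff, Real.dist_eq, Real.dist_eq] at h
    exact h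
  have hP : ∀ s, |avg m (fun x => (φ (X x)).1) s - c| ≤ c/4 ∧
      |avg m (fun x => (φ (X x)).2) s - c| ≤ c/4 := fun s => by
    constructor
    · have := avg_dist m (continuous_fst.comp (hKp.continuous.comp X.continuous))
        continuous_const (fun x => (hnear x).1.trans hKBδ) s
      rwa [havg1] at this
    · have := avg_dist m (continuous_snd.comp (hKp.continuous.comp X.continuous))
        continuous_const (fun x => (hnear x).2.trans hKBδ) s
      rwa [havg1] at this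
  refine ⟨δ, hδ, fun s => (X s).1, fun s => (X s).2, continuous_fst.comp X.continuous,
    continuous_snd.comp X.continuous, ?_, ?_, ?_⟩
  · simp [hX 0, pr, hδ.le]
  · simp [hX 0, pr, hδ.le]
  intro s hs
  have hn := (hXnear s).trans hBδ
  rw [Prod.dist_eq, max_le_iff, Real.dist_eq, Real.dist_eq, abs_le, abs_le] at hn
  have hev : (fun t => ((1:ℝ),(1:ℝ)) + ∫ σ in (0:ℝ)..t, Z X σ) =ᶠ[𝓝 s] X :=
    Filter.eventually_of_mem (isOpen_Ioo.mem_nhds hs) fun t ht => by
      rw [hX t]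
      simp [pr, min_eq_left ht.2.le, max_eq_right ht.1.le]
  have hd : HasDerivAt X (Z X s) s :=
    (((hZc X).integral_hasStrictDerivAt 0 s).hasDerivAt.const_add _).congr_of_eventuallyEq hev.symm
  have he : Z X s = rate m (avg m (fun x => (src m ((X x).1, (X x).2)).1) s,
      avg m (fun x => (src m ((X x).1, (X x).2)).2) s) := by
    simp only [Z, R, Function.comp]
    rw [clampSq_eq (by linarith [(hP s).1]) (by linarith [(hP s).2])]
    simp only [hclamp, Prod.mk.eta]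
  rw [he] at hd
  refine ⟨by linarith [hn.1.1], by linarith [hn.2.1], ?_, ?_, ?_⟩
  · have := (abs_le.1 (hP s).1).1
    have he2 : (fun x => (φ (X x)).1) = (fun x => (src m ((X x).1, (X x).2)).1) := by
      funext x; rw [hclamp]
    rw [he2] at this
    linarith
  · exact ((ContinuousLinearMap.fst ℝ ℝ ℝ).hasFDerivAt.comp_hasDerivAt s hd :)
  · exact ((ContinuousLinearMap.snd ℝ ℝ ℝ).hasFDerivAt.comp_hasDerivAt s hd :)

lemma contDiffOn_all_of_deriv_eq {f f' : ℝ → ℝ} {δ : ℝ} {k : ℕ}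
    (hd : ∀ s ∈ Ioo (-δ) δ, HasDerivAt f (f' s) s)
    (hf' : ContDiffOn ℝ k f' (Ioo (-δ) δ)) : ContDiffOn ℝ (k + 1 : ℕ) f (Ioo (-δ) δ) := by
  have : ContDiffOn ℝ ((k:WithTop ℕ∞) + 1) f (Ioo (-δ) δ) :=
    (contDiffOn_succ_iff_deriv_of_isOpen isOpen_Ioo).2
      ⟨fun s hs => (hd s hs).differentiableAt.differentiableWithinAt, by simp,
        hf'.congr fun s hs => (hd s hs).deriv⟩
  exact_mod_cast this

/-- The smooth local profile, with the two equations in the variable s = r²/2. -/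
theorem exists_local_profile (m : ℕ) :
    ∃ δ : ℝ, 0 < δ ∧ ∃ G H : ℝ → ℝ,
      ContDiffOn ℝ ∞ G (Ioo (-δ) δ) ∧ ContDiffOn ℝ ∞ H (Ioo (-δ) δ) ∧
      G 0 = 1 ∧ deriv G 0 = 1 ∧ 0 < deriv (deriv G) 0 ∧
      H 0 = 1 ∧ deriv H 0 = -((m:ℝ) + 3) / ((m:ℝ) + 1) ∧
      ∀ s ∈ Ioo (-δ) δ, 0 < G s ∧ 0 < H s ∧ 0 < deriv G s ∧
        (deriv G s + 2 * s * deriv (deriv G) s) * deriv G s ^ m
          = G s * H s ^ (-(((m:ℝ) + 4) / ((m:ℝ) + 3))) ∧
        (deriv H s + 2 * s * deriv (deriv H) s) / (deriv G s + 2 * s * deriv (deriv G) s)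
          + (m:ℝ) * deriv H s / deriv G s + ((m:ℝ) + 3) * H s / G s = 0 := by
  obtain ⟨δ, hδ, G, H, hGc, hHc, hG0, hH0, hX⟩ := local_fixed_point m
  set e : ℝ := ((m:ℝ) + 4) / ((m:ℝ) + 3) with hedef
  set P : ℝ → ℝ := fun x => (src m (G x, H x)).1 with hPdef
  set Q : ℝ → ℝ := fun x => (src m (G x, H x)).2 with hQdef
  have hsm : ∀ k : ℕ, ContDiffOn ℝ k G (Ioo (-δ) δ) ∧ ContDiffOn ℝ k H (Ioo (-δ) δ) := by
    intro k
    induction k with
    | zero =>
      exact ⟨contDiffOn_zero.2 hGc.continuousOn, contDiffOn_zero.2 hHc.continuousOn⟩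
    | succ k ih =>
      have hsrc : ContDiffOn ℝ k (fun x => src m (G x, H x)) (Ioo (-δ) δ) := fun x hx =>
        (src_contDiffAt (by
          show H x ≠ 0
          linarith [(hX x hx).2.1])).comp_contDiffWithinAt x ((ih.1 x hx).prodMk (ih.2 x hx))
      have hav : ContDiffOn ℝ k (fun s => (avg m P s, avg m Q s)) (Ioo (-δ) δ) :=
        (avg_contDiffOn k m hsrc.fst).prodMk (avg_contDiffOn k m hsrc.snd)
      have hrate : ContDiffOn ℝ k (fun s => rate m (avg m P s, avg m Q s)) (Ioo (-δ) δ) :=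
        fun x hx => (rate_contDiffAt (hX x hx).2.2.1).comp_contDiffWithinAt x (hav x hx)
      exact ⟨contDiffOn_all_of_deriv_eq (fun s hs => (hX s hs).2.2.2.1) hrate.fst,
        contDiffOn_all_of_deriv_eq (fun s hs => (hX s hs).2.2.2.2) hrate.snd⟩
  have hGinf : ContDiffOn ℝ ∞ G (Ioo (-δ) δ) := contDiffOn_infty.2 fun k => (hsm k).1
  have hHinf : ContDiffOn ℝ ∞ H (Ioo (-δ) δ) := contDiffOn_infty.2 fun k => (hsm k).2
  have hI : ∀ s ∈ Ioo (-δ) δ, Ioo (-δ) δ ∈ 𝓝 s := fun s hs => isOpen_Ioo.mem_nhds hs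
  have hG1 : ContDiffOn ℝ 1 G (Ioo (-δ) δ) := by simpa using (hsm 1).1
  have hH1 : ContDiffOn ℝ 1 H (Ioo (-δ) δ) := by simpa using (hsm 1).2
  have hPQ : ContDiffOn ℝ 1 (fun x => src m (G x, H x)) (Ioo (-δ) δ) := by
    intro x hx
    have h : ContDiffAt ℝ 1 (src m) (G x, H x) := src_contDiffAt (by
      show H x ≠ 0
      linarith [(hX x hx).2.1])
    exact h.comp_contDiffWithinAt x ((hG1 x hx).prodMk (hH1 x hx))
  have hP1 : ContDiffOn ℝ 1 P (Ioo (-δ) δ) := hPQ.fst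
  have hQ1 : ContDiffOn ℝ 1 Q (Ioo (-δ) δ) := hPQ.snd
  have hG'pos : ∀ s ∈ Ioo (-δ) δ, 0 < deriv G s := fun s hs => by
    rw [(hX s hs).2.2.2.1.deriv]
    exact Real.rpow_pos_of_pos (mul_pos (by positivity) (hX s hs).2.2.1) _
  have hpow : ∀ s ∈ Ioo (-δ) δ, deriv G s ^ (m + 1) = ((m:ℝ) + 1) * avg m P s := fun s hs => by
    rw [(hX s hs).2.2.2.1.deriv]
    exact Real.rpow_inv_natCast_pow (mul_pos (by positivity) (hX s hs).2.2.1).le (Nat.succ_ne_zero m)
  have hflux : ∀ s ∈ Ioo (-δ) δ, deriv H s * deriv G s ^ m = -((m:ℝ) + 3) * avg m Q s := fun s hs => by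
    have h0 := hG'pos s hs
    rw [(hX s hs).2.2.2.1.deriv] at h0 ⊢
    rw [(hX s hs).2.2.2.2.deriv]
    exact div_mul_cancel₀ _ (pow_ne_zero _ h0.ne')
  have hder2 : ∀ {F : ℝ → ℝ}, ContDiffOn ℝ ∞ F (Ioo (-δ) δ) → ∀ s ∈ Ioo (-δ) δ,
      HasDerivAt (deriv F) (deriv (deriv F) s) s := fun hF s hs =>
    (((contDiffOn_infty_iff_deriv_of_isOpen isOpen_Ioo).1 hF).2.differentiableOn
      (by simp)).differentiableAt (hI s hs) |>.hasDerivAt
  have hd1 : ∀ s ∈ Ioo (-δ) δ, ((m:ℝ) + 1) * deriv G s ^ m * deriv (deriv G) s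
      = ((m:ℝ) + 1) * avg (m + 2) (deriv P) s := fun s hs => by
    have a1 := (hder2 hGinf s hs).fun_pow (m + 1)
    have a2 : HasDerivAt (fun x => deriv G x ^ (m + 1))
        (((m:ℝ) + 1) * avg (m + 2) (deriv P) s) s :=
      ((avg_hasDerivAt m hP1 hs).const_mul _).congr_of_eventuallyEq
        (eventually_of_mem (hI s hs) hpow)
    simpa using a1.unique a2
  have heq1 : ∀ s ∈ Ioo (-δ) δ,
      (deriv G s + 2 * s * deriv (deriv G) s) * deriv G s ^ m = G s * H s ^ (-e) := fun s hs => by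
    have h := avg_ode m hP1 hs
    have h1 := hd1 s hs
    have h2 := hpow s hs
    have hm : (0:ℝ) < (m:ℝ) + 1 := by positivity
    have h1' := mul_left_cancel₀ hm.ne' ((mul_assoc _ _ _).symm.trans h1)
    show _ = P s
    rw [pow_succ] at h2
    linear_combination h + 2 * s * h1' + h2
  have hmem0 : (0:ℝ) ∈ Ioo (-δ) δ := ⟨by linarith, hδ⟩
  have hG'0 : deriv G 0 = 1 := by
    rw [(hX 0 hmem0).2.2.2.1.deriv]
    have : ((m:ℝ) + 1) * avg m P 0 = 1 := by
      rw [avg_zero]; simp [P, src, hG0, hH0]; field_simp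
    simp only [rate]
    show (((m:ℝ) + 1) * avg m P 0) ^ _ = 1
    rw [this, Real.one_rpow]
  have hH'0 : deriv H 0 = -((m:ℝ) + 3) / ((m:ℝ) + 1) := by
    have h := hflux 0 hmem0
    rw [hG'0, one_pow, mul_one, avg_zero] at h
    rw [h]; simp [Q, src, hG0, hH0]; ring
  have hG''0 : 0 < deriv (deriv G) 0 := by
    have h := hd1 0 hmem0
    rw [hG'0, one_pow, mul_one, avg_zero] at h
    have hP'0 : deriv P 0 = 1 + e * (((m:ℝ) + 3) / ((m:ℝ) + 1)) := by
      have a : HasDerivAt G 1 0 := by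
        rw [← hG'0]; exact ((hsm 1).1.differentiableOn (by simp)).differentiableAt (hI 0 hmem0) |>.hasDerivAt
      have b : HasDerivAt H (-((m:ℝ) + 3) / ((m:ℝ) + 1)) 0 := by
        rw [← hH'0]; exact ((hsm 1).2.differentiableOn (by simp)).differentiableAt (hI 0 hmem0) |>.hasDerivAt
      have c : HasDerivAt P _ 0 := a.mul (b.rpow_const (p := -e) (Or.inl (by rw [hH0]; norm_num)))
      rw [c.deriv, hG0, hH0]; simp; ring
    have hm : (0:ℝ) < (m:ℝ) + 1 := by positivity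
    have := mul_left_cancel₀ hm.ne' h
    rw [this, hP'0]
    positivity
  refine ⟨δ, hδ, G, H, hGinf, hHinf, hG0, hG'0, hG''0, hH0, hH'0, fun s hs => ?_⟩
  have hGs : 0 < G s := by linarith [(hX s hs).1]
  have hHs : 0 < H s := by linarith [(hX s hs).2.1]
  refine ⟨hGs, hHs, hG'pos s hs, heq1 s hs, ?_⟩
  have hd2 : deriv (deriv H) s * deriv G s ^ m +
      deriv H s * ((m:ℝ) * deriv G s ^ (m - 1) * deriv (deriv G) s)
      = -((m:ℝ) + 3) * avg (m + 2) (deriv Q) s :=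
    ((hder2 hHinf s hs).mul ((hder2 hGinf s hs).fun_pow m)).unique
      (((avg_hasDerivAt m hQ1 hs).const_mul _).congr_of_eventuallyEq
        (eventually_of_mem (hI s hs) hflux))
  have hQval : Q s = H s * H s ^ (-e) := by
    show H s ^ (-(1 / ((m:ℝ) + 3))) = _
    rw [← Real.rpow_one_add' hHs.le]
    · congr 1; rw [hedef]; field_simp; ring
    · intro hcon
      rw [hedef] at hcon
      field_simp at hcon
      linarith
  have h3 := avg_ode m hQ1 hs
  rw [hQval] at h3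
  have h4 := heq1 s hs
  have h5 := hflux s hs
  have h6 := hG'pos s hs
  set A := deriv G s
  set A' := deriv (deriv G) s
  have hpm : 0 < A ^ m := pow_pos h6 m
  have hP' : 0 < A + 2 * s * A' := by
    have : 0 < (A + 2 * s * A') * A ^ m := by
      rw [h4]; exact mul_pos hGs (Real.rpow_pos_of_pos hHs _)
    exact pos_of_mul_pos_left this hpm.le
  have hmul : (m:ℝ) * A ^ (m - 1) * A = (m:ℝ) * A ^ m := by
    cases m with
    | zero => simp
    | succ k => rw [Nat.succ_sub_one, pow_succ]; ring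
  field_simp
  apply mul_left_cancel₀ hpm.ne'
  linear_combination (2 * s * G s * A) * hd2 + (((m:ℝ) + 1) * G s * A) * h5
    - (((m:ℝ) + 3) * G s * A) * h3 + ((m:ℝ) + 3) * A * H s * h4
    - 2 * s * G s * deriv H s * A' * hmul

end Vale.Agent.P252
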