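import Mathlib
import Vale.Agent.P252.Box
import Vale.Agent.P252.Local

/-!
The profile on the whole half line: the local solution continued by the solution in the box.
-/

namespace Vale.Agent.P252

open Set Filter Topology Real
open scoped ContDiff

/-- s as a function of t = log r. -/
noncomputable def sOf (t : ℝ) : ℝ := exp (2 * t) / 2

/-- t as a function of s. -/
noncomputable def tOf (s : ℝ) : ℝ := log (2 * s) / 2

lemma sOf_pos (t : ℝ) : 0 < sOf t := by unfold sOf; positivity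

lemma sOf_tOf {s : ℝ} (hs : 0 < s) : sOf (tOf s) = s := by
  simp only [sOf, tOf]
  rw [show 2 * (log (2 * s) / 2) = log (2 * s) by ring, exp_log (by positivity)]
  ring

lemma tOf_sOf (t : ℝ) : tOf (sOf t) = t := by
  simp only [sOf, tOf]
  rw [show 2 * (exp (2 * t) / 2) = exp (2 * t) by ring, log_exp]
  ring

lemma sOf_hasDerivAt (t : ℝ) : HasDerivAt sOf (2 * sOf t) t := by
  have := (((hasDerivAt_id t).const_mul 2).exp).div_const 2
  simp only [id, mul_one] at this
  exact this.congr_deriv (by simp [sOf]; ring)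

lemma tOf_hasDerivAt {s : ℝ} (hs : 0 < s) : HasDerivAt tOf (1 / (2 * s)) s := by
  have := (((hasDerivAt_id s).const_mul 2).log (by simp; exact hs.ne')).div_const 2
  simp only [id, mul_one] at this
  exact this.congr_deriv (by field_simp)

lemma tOf_lt {s s' : ℝ} (hs : 0 < s) (h : s < s') : tOf s < tOf s' := by
  have := Real.log_lt_log (by positivity : 0 < 2 * s) (by linarith : 2 * s < 2 * s')
  simp only [tOf]; linarith

lemma HasDerivAt.first_coord {y : ℝ → ℝ × ℝ × ℝ} {y' : ℝ × ℝ × ℝ} {t : ℝ}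
    (h : HasDerivAt y y' t) : HasDerivAt (fun x => (y x).1) y'.1 t :=
  (ContinuousLinearMap.fst ℝ ℝ (ℝ × ℝ)).hasFDerivAt.comp_hasDerivAt t h

lemma HasDerivAt.second_coord {y : ℝ → ℝ × ℝ × ℝ} {y' : ℝ × ℝ × ℝ} {t : ℝ}
    (h : HasDerivAt y y' t) : HasDerivAt (fun x => (y x).2.1) y'.2.1 t :=
  ((ContinuousLinearMap.fst ℝ ℝ ℝ).comp
    (ContinuousLinearMap.snd ℝ ℝ (ℝ × ℝ))).hasFDerivAt.comp_hasDerivAt t h

lemma HasDerivAt.third_coord {y : ℝ → ℝ × ℝ × ℝ} {y' : ℝ × ℝ × ℝ} {t : ℝ}
    (h : HasDerivAt y y' t) : HasDerivAt (fun x => (y x).2.2) y'.2.2 t :=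
  ((ContinuousLinearMap.snd ℝ ℝ ℝ).comp
    (ContinuousLinearMap.snd ℝ ℝ (ℝ × ℝ))).hasFDerivAt.comp_hasDerivAt t h

/-- The logarithmic state (a, c, k) of a pair of profiles at the point s. -/
noncomputable def state (G H : ℝ → ℝ) (s : ℝ) : ℝ × ℝ × ℝ :=
  (2 * s * deriv G s / G s, (deriv G s + 2 * s * deriv (deriv G) s) / deriv G s,
    -(deriv H s * G s) / (H s * deriv G s))

/-- Solutions of the profile equations solve the autonomous system. -/
lemma state_ode {m : ℕ} {G H : ℝ → ℝ} {s : ℝ} {t : ℝ} (hst : sOf t = s)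
    (hG : ContDiffAt ℝ ∞ G s) (hH : ContDiffAt ℝ ∞ H s)
    (hGp : 0 < G s) (hHp : 0 < H s) (hG' : 0 < deriv G s)
    (h1 : ∀ᶠ x in 𝓝 s, (deriv G x + 2 * x * deriv (deriv G) x) * deriv G x ^ m
          = G x * H x ^ (-(((m:ℝ) + 4) / ((m:ℝ) + 3))))
    (h2 : (deriv H s + 2 * s * deriv (deriv H) s) / (deriv G s + 2 * s * deriv (deriv G) s)
          + (m:ℝ) * deriv H s / deriv G s + ((m:ℝ) + 3) * H s / G s = 0) :
    HasDerivAt (fun x => state G H (sOf x)) (field ((m:ℝ) + 2) (state G H s)) t := by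
  subst hst
  obtain ⟨u, hu, hGu⟩ := (contDiffAt_infty.1 hG 3).contDiffOn (m := ((3:ℕ) : WithTop ℕ∞)) le_rfl (by simp)
  obtain ⟨v, hv, hHv⟩ := (contDiffAt_infty.1 hH 3).contDiffOn (m := ((3:ℕ) : WithTop ℕ∞)) le_rfl (by simp)
  obtain ⟨U, hUsub, hUo, hsU⟩ := mem_nhds_iff.1 (inter_mem hu hv)
  have hGU := hGu.mono (hUsub.trans inter_subset_left)
  have hHU := hHv.mono (hUsub.trans inter_subset_right)
  have hUn := hUo.mem_nhds hsU
  have hGd : ContDiffOn ℝ 2 (deriv G) U := hGU.deriv_of_isOpen hUo (by norm_num)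
  have hGdd : ContDiffOn ℝ 1 (deriv (deriv G)) U := hGd.deriv_of_isOpen hUo (by norm_num)
  have hHd : ContDiffOn ℝ 2 (deriv H) U := hHU.deriv_of_isOpen hUo (by norm_num)
  have g0 := ((hGU.differentiableOn (by norm_num)).differentiableAt hUn).hasDerivAt
  have g1 := ((hGd.differentiableOn (by norm_num)).differentiableAt hUn).hasDerivAt
  have g2 := ((hGdd.differentiableOn (by norm_num)).differentiableAt hUn).hasDerivAt
  have k0 := ((hHU.differentiableOn (by norm_num)).differentiableAt hUn).hasDerivAt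
  have k1 := ((hHd.differentiableOn (by norm_num)).differentiableAt hUn).hasDerivAt
  set e : ℝ := ((m:ℝ) + 4) / ((m:ℝ) + 3) with he
  set σ := sOf t with hσ
  set g := G σ with hg
  set A := deriv G σ with hA
  set A' := deriv (deriv G) σ with hA'
  set A'' := deriv (deriv (deriv G)) σ with hA2
  set h := H σ with hh
  set B := deriv H σ with hB
  set B' := deriv (deriv H) σ with hB'
  have hqd : HasDerivAt (fun x => deriv G x + 2 * x * deriv (deriv G) x)
      (A' + (2 * A' + 2 * σ * A'')) σ := by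
    refine (g1.add (((hasDerivAt_id σ).const_mul 2).mul g2)).congr_deriv ?_
    simp [hA', hA2]
  -- differentiate the first integral
  have hdiff := (hqd.mul (g1.fun_pow m)).unique
    ((g0.mul (k0.rpow_const (p := -e) (Or.inl hHp.ne'))).congr_of_eventuallyEq h1)
  have hrp : h ^ (-e - 1) = h ^ (-e) / h := Real.rpow_sub_one hHp.ne' _
  rw [hrp] at hdiff
  have hpm : 0 < A ^ m := pow_pos hG' m
  have he1 := h1.self_of_nhds
  have hQ : 0 < A + 2 * σ * A' := by
    have : 0 < (A + 2 * σ * A') * A ^ m := by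
      rw [he1]; exact mul_pos hGp (Real.rpow_pos_of_pos hHp _)
    exact pos_of_mul_pos_left this hpm.le
  have hmul : (m:ℝ) * A ^ (m - 1) = (m:ℝ) * A ^ m / A := by
    cases m with
    | zero => simp
    | succ k => rw [Nat.succ_sub_one, pow_succ]; field_simp
  rw [hmul] at hdiff
  -- h^(-e) from the first integral
  have hpe : h ^ (-e) = (A + 2 * σ * A') * A ^ m / g := by
    rw [he1]; field_simp; simp only [hg, hh]; ring
  rw [hpe] at hdiff
  have hA'' : (3 * A' + 2 * σ * A'') * A * g * h + (A + 2 * σ * A') * (m:ℝ) * A' * g * h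
      = (A + 2 * σ * A') * (A * h - e * g * B) * A := by
    field_simp at hdiff
    apply mul_left_cancel₀ hpm.ne'
    linear_combination hdiff
  have hsd := sOf_hasDerivAt t
  have d1 := (((hasDerivAt_id _).const_mul 2).mul g1).div g0 hGp.ne'
  have d2 := hqd.div g1 hG'.ne'
  have d3 := (k1.mul g0).neg.div (k0.mul g1) (mul_pos hHp hG').ne'
  refine ((d1.comp t hsd).prodMk ((d2.comp t hsd).prodMk (d3.comp t hsd))).congr_deriv ?_
  have h2' : (B + 2 * σ * B') * A * g + (m:ℝ) * B * (A + 2 * σ * A') * g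
      + ((m:ℝ) + 3) * h * (A + 2 * σ * A') * A = 0 := by
    field_simp at h2
    linear_combination h2
  have hm3 : (0:ℝ) < (m:ℝ) + 3 := by positivity
  simp only [field, state, Function.comp_apply, Pi.mul_apply, Pi.neg_apply, id, Prod.mk.injEq,
    ← hσ, ← hg, ← hA, ← hA', ← hA2, ← hh, ← hB, ← hB']
  refine ⟨?_, ?_, ?_⟩
  · field_simp; ring
  · rw [he] at hA''
    field_simp at hA'' ⊢
    linear_combination (2 * σ) * hA''
  · field_simp
    linear_combination (-h) * h2'

/-- Existence of a smooth profile on the whole half line, in every dimension n = m + 2 ≥ 10. -/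
theorem exists_profile (m : ℕ) (hm : 8 ≤ m) :
    ∃ G H : ℝ → ℝ, ∀ s, 0 ≤ s →
      ContDiffAt ℝ ∞ G s ∧ ContDiffAt ℝ ∞ H s ∧ 0 < G s ∧ 0 < H s ∧ 0 < deriv G s ∧
        (deriv G s + 2 * s * deriv (deriv G) s) * deriv G s ^ m
          = G s * H s ^ (-(((m:ℝ) + 4) / ((m:ℝ) + 3))) ∧
        (deriv H s + 2 * s * deriv (deriv H) s) / (deriv G s + 2 * s * deriv (deriv G) s)
          + (m:ℝ) * deriv H s / deriv G s + ((m:ℝ) + 3) * H s / G s = 0 := by
  obtain ⟨δ, hδ, G, H, hG, hH, hG0, hG1, hG2, hH0, hH1, hloc⟩ := exists_local_profile m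
  have hm8 : (8:ℝ) ≤ m := by exact_mod_cast hm
  have hN : (10:ℝ) ≤ (m:ℝ) + 2 := by linarith
  set e : ℝ := ((m:ℝ) + 4) / ((m:ℝ) + 3) with he
  have hI0 : (0:ℝ) ∈ Ioo (-δ) δ := ⟨by linarith, hδ⟩
  have hGd := ((contDiffOn_infty_iff_deriv_of_isOpen isOpen_Ioo).1 hG).2
  have hGdd := ((contDiffOn_infty_iff_deriv_of_isOpen isOpen_Ioo).1 hGd).2
  have hHd := ((contDiffOn_infty_iff_deriv_of_isOpen isOpen_Ioo).1 hH).2
  -- near zero the state is in the box
  have hn0 := isOpen_Ioo.mem_nhds hI0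
  have cG := hG.continuousOn.continuousAt hn0
  have cG' := hGd.continuousOn.continuousAt hn0
  have cG'' := hGdd.continuousOn.continuousAt hn0
  have cH := hH.continuousOn.continuousAt hn0
  have cH' := hHd.continuousOn.continuousAt hn0
  have cA : ContinuousAt (fun s => (state G H s).1) 0 :=
    ((continuousAt_const.mul continuousAt_id).mul cG').div cG (by rw [hG0]; norm_num)
  have cC : ContinuousAt (fun s => (state G H s).2.1) 0 :=
    (cG'.add ((continuousAt_const.mul continuousAt_id).mul cG'')).div cG' (by rw [hG1]; norm_num)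
  have cK : ContinuousAt (fun s => (state G H s).2.2) 0 :=
    ((cH'.mul cG).neg).div (cH.mul cG') (by rw [hH0, hG1]; norm_num)
  have hA0 : (state G H 0).1 = 0 := by simp [state]
  have hC0 : (state G H 0).2.1 = 1 := by simp [state, hG1]
  have hK0 : (state G H 0).2.2 = ((m:ℝ) + 3) / ((m:ℝ) + 1) := by
    simp [state, hG0, hG1, hH0, hH1]; ring
  have hK0' : ((m:ℝ) + 3) / ((m:ℝ) + 1) ≤ 11/9 := by
    rw [div_le_div_iff₀ (by positivity) (by norm_num)]; linarith
  have e1 : ∀ᶠ s in 𝓝 (0:ℝ), (state G H s).1 < 9/2 :=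
    cA.eventually_lt continuousAt_const (by show (state G H 0).1 < _; rw [hA0]; norm_num)
  have e2 : ∀ᶠ s in 𝓝 (0:ℝ), (state G H s).2.1 < 7/2 :=
    cC.eventually_lt continuousAt_const (by show (state G H 0).2.1 < _; rw [hC0]; norm_num)
  have e3 : ∀ᶠ s in 𝓝 (0:ℝ), 0 < (state G H s).2.2 :=
    continuousAt_const.eventually_lt cK (by show _ < (state G H 0).2.2; rw [hK0]; positivity)
  have e4 : ∀ᶠ s in 𝓝 (0:ℝ),
      (state G H s).2.2 < 263/120 + (state G H s).2.1 - 9/20 * (state G H s).1 :=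
    cK.eventually_lt ((continuousAt_const.add cC).sub (continuousAt_const.mul cA))
      (by show (state G H 0).2.2 < _ + (state G H 0).2.1 - _ * (state G H 0).1
          rw [hA0, hC0, hK0]; linarith)
  have e5 : ∀ᶠ s in 𝓝 (0:ℝ), 0 < deriv (deriv G) s := continuousAt_const.eventually_lt cG'' hG2
  obtain ⟨ε₀, hε₀, hev⟩ := Metric.eventually_nhds_iff.1
    (e1.and (e2.and (e3.and (e4.and e5))))
  set ε := min ε₀ δ with hεdef
  have hε : 0 < ε := lt_min hε₀ hδ
  have hεI : ∀ s, 0 < s → s < ε → s ∈ Ioo (-δ) δ := fun s h h' =>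
    ⟨by linarith, lt_of_lt_of_le h' (min_le_right _ _)⟩
  have hbox : ∀ s, 0 < s → s < ε → state G H s ∈ box := by
    intro s hs hs'
    obtain ⟨b1, b2, b3, b4, b5⟩ := @hev s (by
      rw [dist_zero_right, Real.norm_of_nonneg hs.le]; exact lt_of_lt_of_le hs' (min_le_left _ _))
    obtain ⟨l1, -, l3, -, -⟩ := hloc s (hεI s hs hs')
    refine ⟨?_, b1.le, ?_, b2.le, b3.le, b4.le⟩
    · simp only [state]; positivity
    · simp only [state]
      rw [one_le_div l3]
      have : 0 ≤ 2 * s * deriv (deriv G) s := by positivity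
      linarith
  -- the global solution
  set t₀ := tOf (ε/4) with ht₀
  set b := tOf (3*ε/8) with hbdef
  set t₁ := tOf (ε/2) with ht₁
  have hb0 : t₀ < b := tOf_lt (by positivity) (by linarith)
  have hb1 : b < t₁ := tOf_lt (by positivity) (by linarith)
  obtain ⟨y, hy0, hyd, hyb, hys, hyu⟩ :=
    exists_box_solution hN t₀ (hbox (ε/4) (by positivity) (by linarith))
  have hrange : ∀ t ∈ Icc t₀ t₁, sOf t < ε := fun t ht => by
    have h : sOf t ≤ sOf t₁ := by
      unfold sOf; have := exp_le_exp.2 (by linarith [ht.2] : 2 * t ≤ 2 * t₁); linarith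
    rw [sOf_tOf (by positivity : (0:ℝ) < ε/2)] at h
    linarith
  have hloco : ∀ t, sOf t < ε → HasDerivAt (fun x => state G H (sOf x))
      (field ((m:ℝ) + 2) (state G H (sOf t))) t := fun t ht => by
    have hi := hεI _ (sOf_pos t) ht
    have hn := isOpen_Ioo.mem_nhds hi
    obtain ⟨l1, l2, l3, l4, l5⟩ := hloc _ hi
    exact state_ode rfl (hG.contDiffAt hn) (hH.contDiffAt hn) l1 l2 l3
      (eventually_of_mem hn fun x hx => (hloc x hx).2.2.2.1) l5
  have hagree : ∀ t ∈ Icc t₀ t₁, state G H (sOf t) = y t :=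
    hyu (fun x => state G H (sOf x)) t₁ (by simp [t₀, sOf_tOf (by positivity : (0:ℝ) < ε/4)])
      (fun t ht => hloco t (hrange t ht)) (fun t ht => hbox _ (sOf_pos t) (hrange t ht))
  have sa : ContDiffOn ℝ ∞ (fun t => (y t).1) (Ioi t₀) := hys.fst
  have sk : ContDiffOn ℝ ∞ (fun t => -((y t).2.2 * (y t).1)) (Ioi t₀) :=
    (hys.snd.snd.mul hys.fst).neg
  -- primitives
  have prim : ∀ (v : ℝ) {f : ℝ → ℝ}, ContDiffOn ℝ ∞ f (Ioi t₀) →
      ∃ F : ℝ → ℝ, F b = v ∧ ContDiffOn ℝ ∞ F (Ioi t₀) ∧ ∀ t, t₀ < t → HasDerivAt F (f t) t := by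
    intro v f hf
    have hd : ∀ t, t₀ < t → HasDerivAt (fun x => v + ∫ τ in b..x, f τ) (f t) t := fun t ht =>
      ((intervalIntegral.integral_hasDerivAt_right
        ((hf.continuousOn.mono (fun x hx => lt_of_lt_of_le (lt_min hb0 ht) hx.1)).intervalIntegrable)
        (hf.continuousOn.stronglyMeasurableAtFilter isOpen_Ioi t ht)
        (hf.continuousOn.continuousAt (isOpen_Ioi.mem_nhds ht))).const_add v)
    refine ⟨_, by simp, ?_, hd⟩
    exact (contDiffOn_infty_iff_deriv_of_isOpen isOpen_Ioi).2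
      ⟨fun t ht => (hd t ht).differentiableAt.differentiableWithinAt,
        hf.congr fun t ht => (hd t ht).deriv⟩
  obtain ⟨L, hLb, hLs, hLd⟩ := prim (log (G (3*ε/8))) sa
  obtain ⟨M, hMb, hMs, hMd⟩ := prim (log (H (3*ε/8))) sk
  have hsb : sOf b = 3*ε/8 := sOf_tOf (by positivity)
  -- agreement on the overlap
  have hLM : ∀ t ∈ Ioo t₀ t₁, L t = log (G (sOf t)) ∧ M t = log (H (sOf t)) := by
    have hconst : ∀ {F : ℝ → ℝ}, (∀ t ∈ Ioo t₀ t₁, HasDerivAt F 0 t) →
        ∀ t ∈ Ioo t₀ t₁, F t = F b := fun hF t ht =>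
      (convex_Ioo t₀ t₁).is_const_of_fderivWithin_eq_zero (𝕜 := ℝ)
        (fun x hx => (hF x hx).differentiableAt.differentiableWithinAt)
        (fun x hx => by
          rw [fderivWithin_of_isOpen isOpen_Ioo hx, (hF x hx).hasFDerivAt.fderiv]
          ext; simp)
        ht ⟨hb0, hb1⟩
    have h1 := hconst (F := fun t => L t - log (G (sOf t))) fun t ht => by
      have hh := hrange t (Ioo_subset_Icc_self ht)
      have hi := hεI _ (sOf_pos t) hh
      obtain ⟨l1, l2, l3, -, -⟩ := hloc _ hi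
      have hd := ((hG.differentiableOn (by simp)).differentiableAt
        (isOpen_Ioo.mem_nhds hi)).hasDerivAt
      refine ((hLd t ht.1).sub ((hd.comp t (sOf_hasDerivAt t)).log l1.ne')).congr_deriv ?_
      rw [← hagree t (Ioo_subset_Icc_self ht)]
      simp only [state, Function.comp_apply]
      field_simp
      ring
    have h2 := hconst (F := fun t => M t - log (H (sOf t))) fun t ht => by
      have hh := hrange t (Ioo_subset_Icc_self ht)
      have hi := hεI _ (sOf_pos t) hh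
      obtain ⟨l1, l2, l3, -, -⟩ := hloc _ hi
      have hd := ((hH.differentiableOn (by simp)).differentiableAt
        (isOpen_Ioo.mem_nhds hi)).hasDerivAt
      refine ((hMd t ht.1).sub ((hd.comp t (sOf_hasDerivAt t)).log l2.ne')).congr_deriv ?_
      rw [← hagree t (Ioo_subset_Icc_self ht)]
      simp only [state, Function.comp_apply]
      field_simp
      ring
    intro t ht
    have a1 := h1 t ht
    have a2 := h2 t ht
    simp only [hLb, hMb, hsb, sub_self] at a1 a2
    exact ⟨by linarith, by linarith⟩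
  -- positivity of a
  have hya : ∀ t, t₀ < t → 0 < (y t).1 := by
    have hloc' : ∀ t ∈ Icc t₀ t₁, 0 < (y t).1 := fun t ht => by
      rw [← hagree t ht]
      obtain ⟨l1, -, l3, -, -⟩ := hloc _ (hεI _ (sOf_pos t) (hrange t ht))
      have := sOf_pos t
      simp only [state]; positivity
    intro t ht
    rcases le_total t t₁ with h | h
    · exact hloc' t ⟨ht.le, h⟩
    have hd : ∀ x, b ≤ x → HasDerivAt (fun x => exp (5/2 * x) * (y x).1)
        (exp (5/2 * x) * ((y x).1 * (7/2 + (y x).2.1 - (y x).1))) x := fun x hx => by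
      have hp := HasDerivAt.first_coord (hyd x (hb0.trans_le hx))
      refine ((((hasDerivAt_id x).const_mul (5/2)).exp).mul hp).congr_deriv ?_
      simp [field]; ring
    have hmono := monotoneOn_of_hasDerivWithinAt_nonneg (convex_Ici b)
      (fun x hx => (hd x hx).continuousAt.continuousWithinAt)
      (fun x hx => (hd x (interior_subset hx)).hasDerivWithinAt)
      (fun x hx => by
        obtain ⟨q1, q2, q3, -, -, -⟩ := hyb x (hb0.trans_le (interior_subset hx)).le
        exact mul_nonneg (exp_pos _).le (mul_nonneg q1 (by linarith)))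
    have hmm := hmono (self_mem_Ici) (mem_Ici.2 (hb1.le.trans h)) (hb1.le.trans h)
    have hpos : 0 < exp (5/2 * b) * (y b).1 := mul_pos (exp_pos _) (hloc' b ⟨hb0.le, hb1.le⟩)
    exact pos_of_mul_pos_right (lt_of_lt_of_le hpos hmm) (exp_pos _).le
  -- continued profiles on s > ε/4
  set G₂ : ℝ → ℝ := fun s => exp (L (tOf s)) with hG₂
  set H₂ : ℝ → ℝ := fun s => exp (M (tOf s)) with hH₂
  have htof : ∀ s, ε/4 < s → t₀ < tOf s := fun s hs => tOf_lt (by positivity) hs
  set W : ℝ → ℝ := fun s => G₂ s * (y (tOf s)).1 / (2 * s) with hW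
  have dG₂ : ∀ s, ε/4 < s → HasDerivAt G₂ (W s) s := fun s hs => by
    have h0 : 0 < s := by linarith
    refine ((((hLd _ (htof s hs)).comp s (tOf_hasDerivAt h0))).exp).congr_deriv ?_
    simp [W, G₂]; ring
  have dH₂ : ∀ s, ε/4 < s →
      HasDerivAt H₂ (-(H₂ s * (y (tOf s)).2.2 * (y (tOf s)).1) / (2 * s)) s := fun s hs => by
    have h0 : 0 < s := by linarith
    refine ((((hMd _ (htof s hs)).comp s (tOf_hasDerivAt h0))).exp).congr_deriv ?_
    simp [H₂]; ring
  have ddG₂ : ∀ s, ε/4 < s →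
      HasDerivAt (deriv G₂) (W s * ((y (tOf s)).2.1 - 1) / (2 * s)) s := fun s hs => by
    have h0 : 0 < s := by linarith
    have h : HasDerivAt W (W s * ((y (tOf s)).2.1 - 1) / (2 * s)) s := by
      refine (((dG₂ s hs).mul ((HasDerivAt.first_coord (hyd _ (htof s hs))).comp s (tOf_hasDerivAt h0))).div
        ((hasDerivAt_id s).const_mul 2) (by simp; exact h0.ne')).congr_deriv ?_
      simp [W, field]; field_simp; ring
    exact h.congr_of_eventuallyEq (eventually_of_mem (Ioi_mem_nhds hs) fun x hx => (dG₂ x hx).deriv)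
  have ddH₂ : ∀ s, ε/4 < s → HasDerivAt (deriv H₂)
      (H₂ s / (2 * s) ^ 2 * (((y (tOf s)).2.2 * (y (tOf s)).1) ^ 2
        - ((field ((m:ℝ) + 2) (y (tOf s))).2.2 * (y (tOf s)).1
          + (y (tOf s)).2.2 * (field ((m:ℝ) + 2) (y (tOf s))).1)
        + 2 * ((y (tOf s)).2.2 * (y (tOf s)).1))) s := fun s hs => by
    have h0 : 0 < s := by linarith
    have hy' := (hyd _ (htof s hs))
    have h : HasDerivAt (fun s => -(H₂ s * (y (tOf s)).2.2 * (y (tOf s)).1) / (2 * s)) _ s :=
      (((dH₂ s hs).mul ((HasDerivAt.third_coord hy').comp s (tOf_hasDerivAt h0))).mul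
        ((HasDerivAt.first_coord hy').comp s (tOf_hasDerivAt h0))).neg.div ((hasDerivAt_id s).const_mul 2)
        (by simp; exact h0.ne')
    refine (h.congr_of_eventuallyEq
      (eventually_of_mem (Ioi_mem_nhds hs) fun x hx => (dH₂ x hx).deriv)).congr_deriv ?_
    simp; field_simp; ring
  -- the first integral
  set R : ℝ → ℝ := fun t =>
    (y t).2.1 * ((y t).1 * exp (L t - 2 * t)) ^ (m + 1) * exp (e * M t - L t) with hR
  have hRd : ∀ t ∈ Ioi t₀, HasDerivAt R 0 t := by
    intro t ht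
    have ht' : t₀ < t := ht
    have hy' := hyd t ht'
    refine (((HasDerivAt.second_coord hy').mul (((HasDerivAt.first_coord hy').mul
      (((hLd t ht').sub ((hasDerivAt_id t).const_mul 2)).exp)).fun_pow (m + 1))).mul
      ((((hMd t ht').const_mul e).sub (hLd t ht')).exp)).congr_deriv ?_
    simp only [Pi.mul_apply, Pi.sub_apply, id, field, Nat.succ_sub_one, pow_succ, Nat.cast_add,
      Nat.cast_one, he]
    field_simp
    ring
  have hRval : ∀ s, ε/4 < s →
      R (tOf s) = (y (tOf s)).2.1 * W s * W s ^ m * H₂ s ^ e / G₂ s := fun s hs => by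
    have h0 : 0 < s := by linarith
    have h2 : exp (2 * tOf s) = 2 * s := by
      have := sOf_tOf h0; simp only [sOf] at this; linarith
    simp only [R, W, G₂, H₂]
    rw [exp_sub, exp_sub, h2, ← exp_mul, mul_comm (M (tOf s)) e, pow_succ, mul_div_assoc']
    field_simp
  have hRone : ∀ t, t₀ < t → R t = 1 := by
    intro t ht
    have hc : R t = R b := (convex_Ioi t₀).is_const_of_fderivWithin_eq_zero (𝕜 := ℝ)
      (fun x hx => (hRd x hx).differentiableAt.differentiableWithinAt)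
      (fun x hx => by
        rw [fderivWithin_of_isOpen isOpen_Ioi hx, (hRd x hx).hasFDerivAt.fderiv]
        ext; simp)
      ht hb0
    rw [hc]
    have hs0 : 0 < 3*ε/8 := by positivity
    have hi := hεI _ hs0 (by linarith)
    obtain ⟨l1, l2, l3, l4, -⟩ := hloc _ hi
    rw [hbdef, hRval _ (by linarith), ← hbdef]
    have hya' := hagree b ⟨hb0.le, hb1.le⟩
    rw [hsb] at hya'
    have e1 : G₂ (3*ε/8) = G (3*ε/8) := by
      simp only [G₂, ← hbdef, hLb, exp_log l1]
    have e2 : H₂ (3*ε/8) = H (3*ε/8) := by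
      simp only [H₂, ← hbdef, hMb, exp_log l2]
    have e3 : W (3*ε/8) = deriv G (3*ε/8) := by
      simp only [W, ← hbdef, e1, ← hya', state]
      field_simp
    rw [e1, e2, e3, ← hya']
    simp only [state]
    rw [div_mul_cancel₀ _ l3.ne', l4, mul_assoc, ← Real.rpow_add l2, he, neg_add_cancel,
      Real.rpow_zero, mul_one, div_self l1.ne']
  -- glue
  classical
  refine ⟨fun s => if s < 3*ε/8 then G s else G₂ s,
    fun s => if s < 3*ε/8 then H s else H₂ s, ?_⟩
  intro s hs
  have hover : ∀ x ∈ Ioo (ε/4) (ε/2), G₂ x = G x ∧ H₂ x = H x := fun x hx => by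
    have h0 : 0 < x := by linarith [hx.1]
    have htI : tOf x ∈ Ioo t₀ t₁ := ⟨htof x hx.1, tOf_lt h0 hx.2⟩
    obtain ⟨l1, l2, -, -, -⟩ := hloc _ (hεI x h0 (by linarith [hx.2]))
    obtain ⟨a1, a2⟩ := hLM _ htI
    rw [sOf_tOf h0] at a1 a2
    simp only [G₂, H₂, a1, a2, exp_log l1, exp_log l2, and_self]
  rcases lt_or_ge s (3*ε/8) with h | h
  · have hi : s ∈ Ioo (-δ) δ := ⟨by linarith, by linarith [min_le_right ε₀ δ, hεdef]⟩
    have hn := isOpen_Ioo.mem_nhds hi
    have q1 : (fun x => if x < 3*ε/8 then G x else G₂ x) =ᶠ[𝓝 s] G :=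
      eventually_of_mem (Iio_mem_nhds h) fun x hx => if_pos hx
    have q2 : (fun x => if x < 3*ε/8 then H x else H₂ x) =ᶠ[𝓝 s] H :=
      eventually_of_mem (Iio_mem_nhds h) fun x hx => if_pos hx
    dsimp only
    rw [q1.deriv.deriv_eq, q1.deriv_eq, q2.deriv.deriv_eq, q2.deriv_eq, q1.eq_of_nhds,
      q2.eq_of_nhds]
    exact ⟨(hG.contDiffAt hn).congr_of_eventuallyEq q1,
      (hH.contDiffAt hn).congr_of_eventuallyEq q2, hloc s hi⟩
  · have hs4 : ε/4 < s := by linarith
    have q1 : (fun x => if x < 3*ε/8 then G x else G₂ x) =ᶠ[𝓝 s] G₂ :=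
      eventually_of_mem (Ioi_mem_nhds hs4) fun x hx => by
        show (if x < 3*ε/8 then G x else G₂ x) = G₂ x
        split
        · exact ((hover x ⟨hx, by linarith⟩).1).symm
        · rfl
    have q2 : (fun x => if x < 3*ε/8 then H x else H₂ x) =ᶠ[𝓝 s] H₂ :=
      eventually_of_mem (Ioi_mem_nhds hs4) fun x hx => by
        show (if x < 3*ε/8 then H x else H₂ x) = H₂ x
        split
        · exact ((hover x ⟨hx, by linarith⟩).2).symm
        · rfl
    dsimp only
    rw [q1.deriv.deriv_eq, q1.deriv_eq, q2.deriv.deriv_eq, q2.deriv_eq, q1.eq_of_nhds,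
      q2.eq_of_nhds]
    have h0 : 0 < s := by linarith
    have ht := htof s hs4
    have hT : ContDiffAt ℝ ∞ tOf s := by
      unfold tOf
      exact ((contDiffAt_const.mul contDiffAt_id).log (by simp; exact h0.ne')).div_const 2
    have sG : ContDiffAt ℝ ∞ G₂ s :=
      ((hLs.contDiffAt (isOpen_Ioi.mem_nhds ht)).comp s hT).exp
    have sH : ContDiffAt ℝ ∞ H₂ s :=
      ((hMs.contDiffAt (isOpen_Ioi.mem_nhds ht)).comp s hT).exp
    refine ⟨sG.congr_of_eventuallyEq q1, sH.congr_of_eventuallyEq q2, exp_pos _, exp_pos _, ?_⟩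
    have hap := hya _ ht
    have hWp : 0 < W s := div_pos (mul_pos (exp_pos _) hap) (by positivity)
    have hcp : 0 < (y (tOf s)).2.1 := by linarith [(hyb _ ht.le).2.2.1]
    rw [(dG₂ s hs4).deriv, (dH₂ s hs4).deriv, (ddG₂ s hs4).deriv, (ddH₂ s hs4).deriv]
    have hq : W s + 2 * s * (W s * ((y (tOf s)).2.1 - 1) / (2 * s)) = (y (tOf s)).2.1 * W s := by
      field_simp; ring
    have hHp : 0 < H₂ s := exp_pos _
    have hGp : 0 < G₂ s := exp_pos _
    refine ⟨hWp, ?_, ?_⟩
    · rw [hq, Real.rpow_neg hHp.le]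
      have := hRone _ ht
      rw [hRval s hs4] at this
      field_simp at this ⊢
      linear_combination this
    · rw [hq]
      simp only [W, field]
      field_simp
      ring

end Vale.Agent.P252
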