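import Mathlib
import Vale.Agent.P252.Defs
import Vale.Agent.P252.Blocks
import Vale.Agent.P252.Glue

/-!
The graph u(y, x) = √(y² + G(|x|²/2)²) solves the affine maximal equation when G is a profile.
-/

namespace Vale.Agent.P252

open Set Filter Topology Real Matrix Finset
open scoped ContDiff

section calculus

variable {n : ℕ} {f g : EuclideanSpace ℝ (Fin n) → ℝ} {z : EuclideanSpace ℝ (Fin n)} {i : Fin n}

lemma pd_congr (h : ∀ z, f z = g z) : pd f i z = pd g i z := by rw [funext h]

lemma coord_hasFDerivAt (k : Fin n) :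
    HasFDerivAt (fun z : EuclideanSpace ℝ (Fin n) => z k) (EuclideanSpace.proj (𝕜 := ℝ) k) z :=
  (EuclideanSpace.proj (𝕜 := ℝ) k).hasFDerivAt

lemma coord_contDiff (k : Fin n) {r : WithTop ℕ∞} :
    ContDiff ℝ r (fun z : EuclideanSpace ℝ (Fin n) => z k) :=
  (EuclideanSpace.proj (𝕜 := ℝ) k).contDiff

lemma hasDerivAt_deriv_of_smooth {φ : ℝ → ℝ} {s : ℝ} (h : ContDiffAt ℝ ∞ φ s) :
    HasDerivAt (deriv φ) (deriv (deriv φ) s) s := by
  obtain ⟨U, hU, hφ⟩ := (contDiffAt_infty.1 h 2).contDiffOn (m := ((2:ℕ) : WithTop ℕ∞)) le_rfl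
    (by simp)
  obtain ⟨V, hV, hVo, hsV⟩ := mem_nhds_iff.1 hU
  have h' : ContDiffOn ℝ 1 (deriv φ) V := (hφ.mono hV).deriv_of_isOpen hVo (by norm_num)
  exact ((h'.differentiableOn one_ne_zero).differentiableAt (hVo.mem_nhds hsV)).hasDerivAt

lemma pd_coord (k : Fin n) : pd (fun z => z k) i z = if k = i then 1 else 0 := by
  have h := coord_hasFDerivAt (z := z) k
  rw [pd, h.fderiv]
  simp

lemma pd_const (r : ℝ) : pd (fun _ => r) i z = 0 := by simp [pd]

lemma pd_add (hf : DifferentiableAt ℝ f z) (hg : DifferentiableAt ℝ g z) :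
    pd (fun z => f z + g z) i z = pd f i z + pd g i z := by
  rw [pd, fderiv_fun_add hf hg]; rfl

lemma pd_mul (hf : DifferentiableAt ℝ f z) (hg : DifferentiableAt ℝ g z) :
    pd (fun z => f z * g z) i z = f z * pd g i z + g z * pd f i z := by
  rw [pd, fderiv_fun_mul hf hg]; rfl

lemma pd_comp {φ : ℝ → ℝ} {φ' : ℝ} (hφ : HasDerivAt φ φ' (f z)) (hf : DifferentiableAt ℝ f z) :
    pd (fun z => φ (f z)) i z = φ' * pd f i z := by
  rw [pd, show (fun z => φ (f z)) = φ ∘ f from rfl,
    (hφ.comp_hasFDerivAt z hf.hasFDerivAt).fderiv]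
  rfl

end calculus

variable {k : ℕ}

/-- Half the squared distance to the axis. -/
noncomputable def sq2 (z : EuclideanSpace ℝ (Fin (k + 1))) : ℝ :=
  (∑ i : Fin k, z i.succ * z i.succ) / 2

lemma sq2_nonneg (z : EuclideanSpace ℝ (Fin (k + 1))) : 0 ≤ sq2 z :=
  div_nonneg (sum_nonneg fun _ _ => mul_self_nonneg _) (by norm_num)

lemma sq2_sum (z : EuclideanSpace ℝ (Fin (k + 1))) : ∑ i : Fin k, z i.succ ^ 2 = 2 * sq2 z := by
  simp [sq2, sq]; ring

lemma sq2_contDiff : ContDiff ℝ ∞ (sq2 : EuclideanSpace ℝ (Fin (k + 1)) → ℝ) := by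
  unfold sq2
  exact (ContDiff.sum fun i _ => (coord_contDiff i.succ).mul (coord_contDiff i.succ)).div_const 2

lemma pd_sq2 (z : EuclideanSpace ℝ (Fin (k + 1))) :
    pd sq2 0 z = 0 ∧ ∀ i : Fin k, pd sq2 i.succ z = z i.succ := by
  have hc := fun j : Fin (k + 1) => coord_hasFDerivAt (z := z) j
  have h := (HasFDerivAt.fun_sum (u := univ) fun (i : Fin k) _ => (hc i.succ).mul (hc i.succ)).mul_const
    (2:ℝ)⁻¹
  have hd : fderiv ℝ (sq2 : EuclideanSpace ℝ (Fin (k + 1)) → ℝ) z = _ :=
    (h.congr_of_eventuallyEq (Eventually.of_forall fun x => by simp [sq2, div_eq_mul_inv])).fderiv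
  constructor
  · rw [pd, hd]; simp [Fin.succ_ne_zero]
  · intro i
    rw [pd, hd]
    simp [Finset.sum_add_distrib, Fin.succ_inj, Pi.single_apply]
    ring

/-- The graph function. -/
noncomputable def graphFun (G : ℝ → ℝ) (z : EuclideanSpace ℝ (Fin (k + 1))) : ℝ :=
  √(z 0 * z 0 + G (sq2 z) * G (sq2 z))

section graph

variable {G : ℝ → ℝ} (hG : ∀ s, 0 ≤ s → ContDiffAt ℝ ∞ G s) (hGp : ∀ s, 0 ≤ s → 0 < G s)
  (z : EuclideanSpace ℝ (Fin (k + 1)))

include hGp in
lemma rad_pos : 0 < z 0 * z 0 + G (sq2 z) * G (sq2 z) := by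
  have := hGp _ (sq2_nonneg z)
  exact add_pos_of_nonneg_of_pos (mul_self_nonneg _) (mul_pos this this)

include hGp in
lemma graphFun_pos : 0 < graphFun G z := Real.sqrt_pos.2 (rad_pos hGp z)

include hGp in
lemma graphFun_sq : graphFun G z * graphFun G z = z 0 * z 0 + G (sq2 z) * G (sq2 z) :=
  Real.mul_self_sqrt (rad_pos hGp z).le

include hG hGp in
lemma graphFun_contDiff : ContDiff ℝ ∞ (graphFun G : EuclideanSpace ℝ (Fin (k + 1)) → ℝ) := by
  refine contDiff_iff_contDiffAt.2 fun z => ?_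
  have h1 : ContDiffAt ℝ ∞ (fun z => G (sq2 z)) z :=
    (hG _ (sq2_nonneg z)).comp z sq2_contDiff.contDiffAt
  have h0 : ContDiffAt ℝ ∞ (fun z : EuclideanSpace ℝ (Fin (k + 1)) => z 0) z :=
    (coord_contDiff 0).contDiffAt
  exact ((h0.mul h0).add (h1.mul h1)).sqrt (rad_pos hGp z).ne'

include hG in
lemma profile_hasDerivAt : HasDerivAt G (deriv G (sq2 z)) (sq2 z) :=
  ((hG _ (sq2_nonneg z)).differentiableAt (by simp)).hasDerivAt

include hG hGp in
lemma pd_graphFun : pd (graphFun G) 0 z = z 0 / graphFun G z ∧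
    ∀ i : Fin k, pd (graphFun G) i.succ z
      = G (sq2 z) * deriv G (sq2 z) / graphFun G z * z i.succ := by
  have hs : DifferentiableAt ℝ sq2 z := (sq2_contDiff (k := k)).contDiffAt.differentiableAt (by simp)
  have h0 : DifferentiableAt ℝ (fun z : EuclideanSpace ℝ (Fin (k + 1)) => z 0) z :=
    (coord_hasFDerivAt 0).differentiableAt
  have hg := profile_hasDerivAt hG z
  have h1 : DifferentiableAt ℝ (fun z => G (sq2 z)) z := hg.differentiableAt.comp z hs
  have key : ∀ i, pd (graphFun G) i z = 1 / (2 * graphFun G z) *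
      (2 * (z 0 * pd (fun z => z 0) i z) + 2 * (G (sq2 z) * (deriv G (sq2 z) * pd sq2 i z))) := by
    intro i
    unfold graphFun
    rw [pd_comp (φ := Real.sqrt) (Real.hasDerivAt_sqrt (rad_pos hGp z).ne')
      ((h0.fun_mul h0).fun_add (h1.fun_mul h1)), pd_add (h0.fun_mul h0) (h1.fun_mul h1), pd_mul h0 h0, pd_mul h1 h1,
      pd_comp hg hs]
    ring
  have hu := (graphFun_pos hGp z).ne'
  refine ⟨?_, fun i => ?_⟩
  · rw [key, pd_coord, (pd_sq2 z).1, if_pos rfl]; field_simp; ring
  · rw [key, pd_coord, (pd_sq2 z).2, if_neg (Fin.succ_ne_zero i).symm]; field_simp; ring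

include hG hGp in
lemma hess_graphFun : hess (graphFun G) z = blk (fun i => z i.succ)
    (G (sq2 z) * deriv G (sq2 z) / graphFun G z)
    ((deriv G (sq2 z) ^ 2 + G (sq2 z) * deriv (deriv G) (sq2 z)) / graphFun G z
      - G (sq2 z) ^ 2 * deriv G (sq2 z) ^ 2 / graphFun G z ^ 3)
    (-(z 0 * G (sq2 z) * deriv G (sq2 z)) / graphFun G z ^ 3)
    (G (sq2 z) ^ 2 / graphFun G z ^ 3) := by
  have hu := (graphFun_pos hGp z).ne'
  have hus := graphFun_sq hGp z
  have hs : DifferentiableAt ℝ sq2 z := (sq2_contDiff (k := k)).contDiffAt.differentiableAt (by simp)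
  have hud : DifferentiableAt ℝ (graphFun G) z :=
    (graphFun_contDiff hG hGp).contDiffAt.differentiableAt (by simp)
  have hc : ∀ j : Fin (k + 1),
      DifferentiableAt ℝ (fun z : EuclideanSpace ℝ (Fin (k + 1)) => z j) z :=
    fun j => (coord_hasFDerivAt j).differentiableAt
  have hg := profile_hasDerivAt hG z
  have hg' : HasDerivAt (deriv G) (deriv (deriv G) (sq2 z)) (sq2 z) :=
    hasDerivAt_deriv_of_smooth (hG _ (sq2_nonneg z))
  have hinv : DifferentiableAt ℝ (fun z => (graphFun G z)⁻¹) z := hud.inv hu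
  have dinv : ∀ i, pd (fun z => (graphFun G z)⁻¹) i z
      = -(graphFun G z ^ 2)⁻¹ * pd (graphFun G) i z := fun i =>
    pd_comp (φ := fun x => x⁻¹) (hasDerivAt_inv hu) hud
  have hG1 : DifferentiableAt ℝ (fun z => G (sq2 z)) z := hg.differentiableAt.comp z hs
  have hG2 : DifferentiableAt ℝ (fun z => deriv G (sq2 z)) z := hg'.differentiableAt.comp z hs
  ext i j
  simp only [hess, Matrix.of_apply]
  induction j using Fin.cases with
  | zero =>
    rw [pd_congr (g := fun z => z 0 * (graphFun G z)⁻¹)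
      fun w => ((pd_graphFun hG hGp w).1).trans (div_eq_mul_inv _ _), pd_mul (hc 0) hinv, dinv,
      pd_coord]
    induction i using Fin.cases with
    | zero =>
      rw [(pd_graphFun hG hGp z).1, blk_zero_zero, if_pos rfl]
      field_simp
      linear_combination hus
    | succ i =>
      rw [(pd_graphFun hG hGp z).2, blk_succ_zero, if_neg (Fin.succ_ne_zero i).symm]
      field_simp
      ring
  | succ j =>
    rw [pd_congr (g := fun z => ((G (sq2 z) * deriv G (sq2 z)) * (graphFun G z)⁻¹) * z j.succ)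
      fun w => ((pd_graphFun hG hGp w).2 j).trans (by rw [div_eq_mul_inv]),
      pd_mul ((hG1.fun_mul hG2).fun_mul hinv) (hc j.succ), pd_mul (hG1.fun_mul hG2) hinv, dinv,
      pd_mul hG1 hG2, pd_comp hg hs, pd_comp hg' hs, pd_coord]
    induction i using Fin.cases with
    | zero =>
      rw [(pd_graphFun hG hGp z).1, (pd_sq2 z).1, blk_zero_succ, if_neg (Fin.succ_ne_zero j)]
      field_simp
      ring
    | succ i =>
      rw [(pd_graphFun hG hGp z).2, (pd_sq2 z).2, blk_succ_succ]
      rcases eq_or_ne i j with h | h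
      · subst h; simp only [if_true]; field_simp; ring
      · rw [if_neg h, if_neg fun hh => h (Fin.succ_inj.1 hh).symm]; field_simp; ring

end graph

/-- A profile gives a solution of the affine maximal equation in dimension n = m + 2. -/
theorem graph_solves {m : ℕ} {G H : ℝ → ℝ} (hprof : ∀ s, 0 ≤ s →
      ContDiffAt ℝ ∞ G s ∧ ContDiffAt ℝ ∞ H s ∧ 0 < G s ∧ 0 < H s ∧ 0 < deriv G s ∧
        (deriv G s + 2 * s * deriv (deriv G) s) * deriv G s ^ m
          = G s * H s ^ (-(((m:ℝ) + 4) / ((m:ℝ) + 3))) ∧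
        (deriv H s + 2 * s * deriv (deriv H) s) / (deriv G s + 2 * s * deriv (deriv G) s)
          + (m:ℝ) * deriv H s / deriv G s + ((m:ℝ) + 3) * H s / G s = 0)
    (z : EuclideanSpace ℝ (Fin (m + 1 + 1))) :
    (hess (graphFun G) z).PosDef ∧
      ∑ i, ∑ j, ((hess (graphFun G) z).det * (hess (graphFun G) z)⁻¹ i j)
        * hess (affW (graphFun G)) z i j = 0 := by
  have hG : ∀ s, 0 ≤ s → ContDiffAt ℝ ∞ G s := fun s hs => (hprof s hs).1
  have hH : ∀ s, 0 ≤ s → ContDiffAt ℝ ∞ H s := fun s hs => (hprof s hs).2.1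
  have hGp : ∀ s, 0 ≤ s → 0 < G s := fun s hs => (hprof s hs).2.2.1
  set M : ℕ := m + 3 with hM
  -- determinant of the Hessian and the weight, at every point
  have hdet : ∀ w : EuclideanSpace ℝ (Fin (m + 1 + 1)), (hess (graphFun G) w).det
      = (G (sq2 w) / graphFun G w) ^ (m + 4) * H (sq2 w) ^ (-(((m:ℝ) + 4) / ((m:ℝ) + 3))) := by
    intro w
    obtain ⟨-, -, g0, -, g1, he, -⟩ := hprof _ (sq2_nonneg w)
    have hu := graphFun_pos hGp w
    have hus := graphFun_sq hGp w
    rw [hess_graphFun hG hGp w, blk_det (sq2_sum w) (by positivity) (by positivity)]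
    have e : H (sq2 w) ^ (-(((m:ℝ) + 4) / ((m:ℝ) + 3)))
        = (deriv G (sq2 w) + 2 * sq2 w * deriv (deriv G) (sq2 w)) * deriv G (sq2 w) ^ m
          / G (sq2 w) := by rw [he]; field_simp
    rw [e]
    simp only [div_pow, mul_pow, pow_succ, pow_zero, one_mul]
    field_simp
    linear_combination (2 * sq2 w * deriv G (sq2 w) ^ 2) * hus
  have hW : ∀ w : EuclideanSpace ℝ (Fin (m + 1 + 1)), affW (graphFun G) w
      = graphFun G w ^ M * (H (sq2 w) * (G (sq2 w) ^ M)⁻¹) := by
    intro w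
    obtain ⟨-, -, g0, h0, -, -, -⟩ := hprof _ (sq2_nonneg w)
    have hu := graphFun_pos hGp w
    rw [affW, hdet, Real.mul_rpow (by positivity) (by positivity), ← Real.rpow_mul h0.le,
      ← Real.rpow_natCast, ← Real.rpow_mul (by positivity)]
    rw [show -(((m:ℝ) + 4) / ((m:ℝ) + 3)) * -((((m + 1 + 1 : ℕ) : ℝ) + 1) / (((m + 1 + 1 : ℕ) : ℝ) + 2)) = 1
        by push_cast; field_simp; ring,
      show ((m + 4 : ℕ) : ℝ) * -((((m + 1 + 1 : ℕ) : ℝ) + 1) / (((m + 1 + 1 : ℕ) : ℝ) + 2)) = -(M : ℝ)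
        by simp only [hM]; push_cast; field_simp; ring,
      Real.rpow_one, Real.rpow_neg (by positivity), Real.rpow_natCast, div_pow, inv_div]
    ring
  set K : ℝ → ℝ := fun s => H s * (G s ^ M)⁻¹ with hK
  have hKc : ∀ s, 0 ≤ s → ContDiffAt ℝ ∞ K s := fun s hs =>
    (hH s hs).mul (((hG s hs).pow M).inv (pow_pos (hGp s hs) M).ne')
  have hKd : ∀ s, 0 ≤ s → HasDerivAt K (deriv H s * (G s ^ M)⁻¹
      + H s * (-((M:ℝ) * deriv G s) * (G s ^ M * G s)⁻¹)) s := fun s hs => by
    have g0 := hGp s hs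
    refine (((hH s hs).differentiableAt (by simp)).hasDerivAt.mul
      ((((hG s hs).differentiableAt (by simp)).hasDerivAt.fun_pow M).fun_inv
        (pow_pos g0 M).ne')).congr_deriv ?_
    rw [hM, show m + 3 - 1 = m + 2 by omega]
    simp only [pow_succ]; field_simp
  set s := sq2 z with hs
  have hs0 : 0 ≤ s := sq2_nonneg z
  obtain ⟨-, -, g0, h0, g1, he, h2⟩ := hprof s hs0
  set u := graphFun G z with hudef
  have hu : 0 < u := graphFun_pos hGp z
  have hus : u * u = z 0 * z 0 + G s * G s := graphFun_sq hGp z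
  have hq : 0 < deriv G s + 2 * s * deriv (deriv G) s := by
    have : 0 < (deriv G s + 2 * s * deriv (deriv G) s) * deriv G s ^ m := by
      rw [he]; exact mul_pos g0 (Real.rpow_pos_of_pos h0 _)
    exact pos_of_mul_pos_left this (pow_pos g1 m).le
  constructor
  · rw [hess_graphFun hG hGp z]
    refine blk_posDef (sq2_sum z) (by positivity) (by positivity) ?_
    have : G s * (deriv G s + 2 * s * deriv (deriv G) s) / u > 0 := by positivity
    rw [← hs, ← hudef]
    convert this using 1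
    field_simp
    linear_combination (2 * s * deriv G s ^ 2) * hus
  -- second derivative of K
  have hd2 : ∀ {F : ℝ → ℝ}, ContDiffAt ℝ ∞ F s → HasDerivAt (deriv F) (deriv (deriv F) s) s :=
    fun {F} hF => hasDerivAt_deriv_of_smooth hF
  have hsev : ∀ᶠ x in 𝓝 s, HasDerivAt K (deriv H x * (G x ^ M)⁻¹
      + H x * (-((M:ℝ) * deriv G x) * (G x ^ M * G x)⁻¹)) x := by
    have a := ((hG s hs0).of_le (m := 1) (by exact_mod_cast le_top)).eventually (by simp)
    have b := ((hH s hs0).of_le (m := 1) (by exact_mod_cast le_top)).eventually (by simp)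
    have c := (hG s hs0).continuousAt.eventually (lt_mem_nhds g0)
    filter_upwards [a, b, c] with x hx hy hz
    refine ((hy.differentiableAt one_ne_zero).hasDerivAt.mul
      (((hx.differentiableAt one_ne_zero).hasDerivAt.fun_pow M).fun_inv
        (pow_pos hz M).ne')).congr_deriv ?_
    rw [hM, show m + 3 - 1 = m + 2 by omega]
    simp only [pow_succ]; field_simp
  have gd := ((hG s hs0).differentiableAt (by simp)).hasDerivAt
  have hdd := ((hH s hs0).differentiableAt (by simp)).hasDerivAt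
  have hK2 : deriv (deriv K) s = (deriv (deriv H) s - 2 * (M:ℝ) * deriv G s * deriv H s / G s
      - (M:ℝ) * H s * deriv (deriv G) s / G s
      + (M:ℝ) * ((M:ℝ) + 1) * H s * deriv G s ^ 2 / G s ^ 2) * (G s ^ M)⁻¹ := by
    have e : deriv K =ᶠ[𝓝 s] fun x => deriv H x * (G x ^ M)⁻¹
        + H x * (-((M:ℝ) * deriv G x) * (G x ^ M * G x)⁻¹) := hsev.mono fun x hx => hx.deriv
    have d := (((hd2 (hH s hs0)).mul ((gd.fun_pow M).fun_inv (pow_pos g0 M).ne'))).add
      (hdd.mul ((((hd2 (hG s hs0)).const_mul (M:ℝ)).neg).mul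
        (((gd.fun_pow M).mul gd).fun_inv (mul_pos (pow_pos g0 M) g0).ne')))
    rw [(d.congr_of_eventuallyEq e).deriv]
    simp only [Pi.mul_apply, Pi.neg_apply, hM, show m + 3 - 1 = m + 2 by omega]
    push_cast
    simp only [pow_succ]
    field_simp
    ring
  -- Hessian of the weight
  have hWd : ∀ w (i : Fin (m + 1 + 1)), pd (affW (graphFun G)) i w
      = graphFun G w ^ M * (deriv K (sq2 w) * pd sq2 i w)
        + K (sq2 w) * ((M:ℝ) * graphFun G w ^ (M - 1) * pd (graphFun G) i w) := by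
    intro w i
    have hud : DifferentiableAt ℝ (graphFun G) w :=
      (graphFun_contDiff hG hGp).contDiffAt.differentiableAt (by simp)
    have hsd : DifferentiableAt ℝ sq2 w :=
      (sq2_contDiff (k := m + 1)).contDiffAt.differentiableAt (by simp)
    have hKw := ((hKc _ (sq2_nonneg w)).differentiableAt (by simp)).hasDerivAt
    have hKs2 : DifferentiableAt ℝ (fun w => K (sq2 w)) w :=
      DifferentiableAt.comp (g := K) w hKw.differentiableAt hsd
    rw [pd_congr (g := fun w => graphFun G w ^ M * K (sq2 w)) hW,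
      pd_mul (hud.fun_pow M) hKs2, pd_comp hKw hsd,
      pd_comp (φ := fun x => x ^ M) (hasDerivAt_pow M _) hud]
  have hhW : ∀ i j, hess (affW (graphFun G)) z i j
      = u ^ M * (deriv K s * hess sq2 z i j) + u ^ M * deriv (deriv K) s * (pd sq2 i z * pd sq2 j z)
        + (M:ℝ) * u ^ (M - 1) * deriv K s
          * (pd (graphFun G) i z * pd sq2 j z + pd sq2 i z * pd (graphFun G) j z)
        + K s * (M:ℝ) * u ^ (M - 1) * hess (graphFun G) z i j
        + K s * (M:ℝ) * ((M - 1 : ℕ) : ℝ) * u ^ (M - 1 - 1)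
          * (pd (graphFun G) i z * pd (graphFun G) j z) := by
    intro i j
    have hud : DifferentiableAt ℝ (graphFun G) z :=
      (graphFun_contDiff hG hGp).contDiffAt.differentiableAt (by simp)
    have hsd : DifferentiableAt ℝ sq2 z :=
      (sq2_contDiff (k := m + 1)).contDiffAt.differentiableAt (by simp)
    have hKs := ((hKc s hs0).differentiableAt (by simp)).hasDerivAt
    have hK' := hd2 (hKc s hs0)
    have hpd : ∀ {f : EuclideanSpace ℝ (Fin (m + 1 + 1)) → ℝ}, ContDiff ℝ ∞ f →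
        DifferentiableAt ℝ (pd f j) z := fun {f} hf => by
      exact (((hf.fderiv_right (m := ∞) (by simp)).clm_apply contDiff_const).differentiable
        (by simp)).differentiableAt
    have a1 := hpd (f := sq2) sq2_contDiff
    have a2 := hpd (f := graphFun G) (graphFun_contDiff hG hGp)
    have b1 : DifferentiableAt ℝ (fun w => deriv K (sq2 w)) z := DifferentiableAt.comp (g := deriv K) z hK'.differentiableAt hsd
    have b2 : DifferentiableAt ℝ (fun w => K (sq2 w)) z := DifferentiableAt.comp (g := K) z hKs.differentiableAt hsd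
    have b3 : DifferentiableAt ℝ (fun w => (M:ℝ) * graphFun G w ^ (M - 1)) z :=
      (differentiableAt_const _).fun_mul (hud.fun_pow _)
    simp only [hess, Matrix.of_apply]
    rw [pd_congr (hWd · j), pd_add ((hud.fun_pow M).fun_mul (b1.fun_mul a1))
      (b2.fun_mul (b3.fun_mul a2)), pd_mul (hud.fun_pow M) (b1.fun_mul a1), pd_mul b1 a1,
      pd_mul b2 (b3.fun_mul a2), pd_mul b3 a2, pd_mul (differentiableAt_const _) (hud.fun_pow _),
      pd_comp hK' hsd, pd_comp hKs hsd, pd_comp (φ := fun x => x ^ M) (hasDerivAt_pow M _) hud,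
      pd_comp (φ := fun x => x ^ (M - 1)) (hasDerivAt_pow (M - 1) _) hud, pd_const]
    ring
  -- the inverse Hessian
  set x : Fin (m + 1) → ℝ := fun i => z i.succ with hx
  set g := G s with hg
  set A := deriv G s with hA
  set A' := deriv (deriv G) s with hA'
  set q := A + 2 * s * A' with hqdef
  set y := z 0 with hy
  set Hi : Matrix (Fin (m + 1 + 1)) (Fin (m + 1 + 1)) ℝ := blk x (u / (g * A))
    (-(A' * u) / (g * A * q)) (y * A * u / (g ^ 2 * q))
    (u ^ 3 / g ^ 2 + 2 * s * y ^ 2 * A ^ 2 * u / (g ^ 3 * q)) with hHi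
  have hinv : hess (graphFun G) z * Hi = 1 := by
    rw [hess_graphFun hG hGp z, hHi]
    simp only [← hs, ← hudef, ← hg, ← hA, ← hA', ← hy, ← hx]
    apply blk_mul_eq_one (sq2_sum z)
    · field_simp; simp only [hqdef]; ring
    · field_simp; simp only [hqdef]; ring
    · field_simp; simp only [hqdef]; linear_combination (2 * s * A ^ 3 * y) * hus
    · field_simp
    · field_simp; simp only [hqdef]; linear_combination (A ^ 3) * hus
  rw [Matrix.inv_eq_right_inv hinv]
  have hhs : ∀ i j : Fin (m + 1 + 1), hess sq2 z i j = if i = j ∧ i ≠ 0 then 1 else 0 := by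
    intro i j
    simp only [hess, Matrix.of_apply]
    induction j using Fin.cases with
    | zero =>
      rw [pd_congr (g := fun _ => (0:ℝ)) fun w => (pd_sq2 w).1, pd_const, if_neg]
      rintro ⟨a, b⟩; exact b a
    | succ j =>
      rw [pd_congr (g := fun w => w j.succ) fun w => (pd_sq2 w).2 j, pd_coord]
      refine if_congr ⟨fun h => ⟨h.symm, h ▸ Fin.succ_ne_zero j⟩, fun h => h.1.symm⟩ rfl rfl
  -- the contractions
  have hsymm : ∀ i j, hess (graphFun G) z i j = hess (graphFun G) z j i := fun i j => by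
    rw [hess_graphFun hG hGp z]
    induction i using Fin.cases <;> induction j using Fin.cases <;> simp [eq_comm] <;> ring
  have c0 : ∑ i, ∑ j, Hi i j * hess (graphFun G) z i j = ((m:ℝ) + 2) := by
    have := congrArg Matrix.trace hinv
    rw [Matrix.trace_one, Fintype.card_fin, Matrix.trace, Finset.sum_congr rfl fun i _ =>
      (Matrix.diag_apply _ i).trans (Matrix.mul_apply), sum_comm] at this
    rw [show ((m:ℝ) + 2) = ((m + 1 + 1 : ℕ) : ℝ) by push_cast; ring, ← this]
    exact sum_congr rfl fun i _ => sum_congr rfl fun j _ => by rw [hsymm i j]; ring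
  have hS : ∑ l, x l ^ 2 = 2 * s := sq2_sum z
  have hS' : ∀ t : ℝ, ∑ l, t * (x l * x l) = t * (2 * s) := fun t => by
    rw [← mul_sum, ← hS]; simp [sq]
  -- Hi applied to (0, x)
  have hv : ∀ i, ∑ j, Hi i j * pd sq2 j z
      = Fin.cases (y * A * u / (g ^ 2 * q) * (2 * s)) (fun i => u / (g * q) * x i) i := by
    intro i
    rw [Fin.sum_univ_succ, (pd_sq2 z).1, mul_zero, zero_add]
    simp only [(pd_sq2 z).2]
    induction i using Fin.cases with
    | zero =>
      simp only [hHi, blk_zero_succ, Fin.cases_zero, hx]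
      rw [← hS' (y * A * u / (g ^ 2 * q))]
      exact sum_congr rfl fun l _ => by ring
    | succ i =>
      simp only [hHi, blk_succ_succ, Fin.cases_succ, hx]
      rw [show (∑ l, ((if i = l then u / (g * A) else 0) + -(A' * u) / (g * A * q) * z i.succ * z l.succ)
          * z l.succ) = (∑ l, if i = l then u / (g * A) * z l.succ else 0)
          + ∑ l, (-(A' * u) / (g * A * q) * z i.succ) * (x l * x l) from by
          rw [← sum_add_distrib]; exact sum_congr rfl fun l _ => by simp only [hx]; split_ifs <;> ring,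
        sum_ite_eq Finset.univ i fun l => u / (g * A) * z l.succ, hS', if_pos (Finset.mem_univ i)]
      field_simp; simp only [hqdef]; ring
  have c1 : ∑ i, ∑ j, Hi i j * (pd sq2 i z * pd sq2 j z) = 2 * s * u / (g * q) := by
    rw [sum_congr rfl fun i _ => (show ∑ j, Hi i j * (pd sq2 i z * pd sq2 j z)
      = pd sq2 i z * ∑ j, Hi i j * pd sq2 j z by
        rw [mul_sum]; exact sum_congr rfl fun j _ => by ring), Fin.sum_univ_succ]
    simp only [hv, (pd_sq2 z).1, (pd_sq2 z).2, Fin.cases_succ, zero_mul, zero_add]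
    rw [show (∑ i, z (Fin.succ i) * (u / (g * q) * x i)) = ∑ i, u / (g * q) * (x i * x i) from
      sum_congr rfl fun i _ => by simp only [hx]; ring, hS']
    ring
  have c2 : ∑ i, ∑ j, Hi i j * (pd (graphFun G) i z * pd sq2 j z)
      = 2 * s * A * u ^ 2 / (g ^ 2 * q) := by
    rw [sum_congr rfl fun i _ => (show ∑ j, Hi i j * (pd (graphFun G) i z * pd sq2 j z)
      = pd (graphFun G) i z * ∑ j, Hi i j * pd sq2 j z by
        rw [mul_sum]; exact sum_congr rfl fun j _ => by ring), Fin.sum_univ_succ]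
    simp only [hv, (pd_graphFun hG hGp z).1, (pd_graphFun hG hGp z).2, Fin.cases_zero,
      Fin.cases_succ, ← hs, ← hudef, ← hg, ← hA, ← hy]
    rw [show (∑ i, g * A / u * z (Fin.succ i) * (u / (g * q) * x i))
      = ∑ i, A / q * (x i * x i) from sum_congr rfl fun i _ => by simp only [hx]; field_simp, hS']
    field_simp
    linear_combination (-s) * hus
  have c2' : ∑ i, ∑ j, Hi i j * (pd sq2 i z * pd (graphFun G) j z)
      = 2 * s * A * u ^ 2 / (g ^ 2 * q) := by
    rw [← c2, sum_comm]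
    refine sum_congr rfl fun i _ => sum_congr rfl fun j _ => ?_
    have : Hi j i = Hi i j := by
      rw [hHi]; induction i using Fin.cases <;> induction j using Fin.cases <;> simp [eq_comm] <;> ring
    rw [this]; ring
  -- Hi applied to the gradient of u
  have hvu : ∀ i, ∑ j, Hi i j * pd (graphFun G) j z
      = Fin.cases ((u ^ 2 / g ^ 2 + 2 * s * A ^ 2 * u ^ 2 / (g ^ 3 * q)) * y)
        (fun i => A * u ^ 2 / (g ^ 2 * q) * x i) i := by
    intro i
    rw [Fin.sum_univ_succ, (pd_graphFun hG hGp z).1]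
    simp only [(pd_graphFun hG hGp z).2, ← hs, ← hudef, ← hg, ← hA, ← hy]
    induction i using Fin.cases with
    | zero =>
      simp only [hHi, blk_zero_zero, blk_zero_succ, Fin.cases_zero, hx]
      rw [show (∑ l : Fin (m + 1), y * A * u / (g ^ 2 * q) * z l.succ * (g * A / u * z l.succ))
        = ∑ l, (y * A ^ 2 / (g * q)) * (x l * x l) from
          sum_congr rfl fun l _ => by simp only [hx]; field_simp, hS']
      field_simp
      linear_combination (-2 * s * A ^ 2 * y) * hus
    | succ i =>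
      simp only [hHi, blk_succ_zero, blk_succ_succ, Fin.cases_succ, hx]
      rw [show (∑ l, ((if i = l then u / (g * A) else 0) + -(A' * u) / (g * A * q) * z i.succ * z l.succ)
          * (g * A / u * z l.succ)) = (∑ l, if i = l then z l.succ else 0)
          + ∑ l, (-A' / q * z i.succ) * (x l * x l) from by
          rw [← sum_add_distrib]
          exact sum_congr rfl fun l _ => by simp only [hx]; split_ifs <;> field_simp <;> ring,
        sum_ite_eq Finset.univ i fun l => z l.succ, hS', if_pos (Finset.mem_univ i)]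
      field_simp
      rw [hqdef]
      linear_combination (-(z i.succ * A)) * hus
  have c3 : ∑ i, ∑ j, Hi i j * (pd (graphFun G) i z * pd (graphFun G) j z)
      = 2 * s * A ^ 2 * u ^ 3 / (g ^ 3 * q) + u * y ^ 2 / g ^ 2 := by
    rw [sum_congr rfl fun i _ => (show ∑ j, Hi i j * (pd (graphFun G) i z * pd (graphFun G) j z)
      = pd (graphFun G) i z * ∑ j, Hi i j * pd (graphFun G) j z by
        rw [mul_sum]; exact sum_congr rfl fun j _ => by ring), Fin.sum_univ_succ]
    simp only [hvu, (pd_graphFun hG hGp z).1, (pd_graphFun hG hGp z).2, Fin.cases_zero,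
      Fin.cases_succ, ← hs, ← hudef, ← hg, ← hA, ← hy]
    rw [show (∑ i, g * A / u * z (Fin.succ i) * (A * u ^ 2 / (g ^ 2 * q) * x i))
      = ∑ i, A ^ 2 * u / (g * q) * (x i * x i) from
        sum_congr rfl fun i _ => by simp only [hx]; field_simp, hS']
    field_simp
    linear_combination (-2 * s * A ^ 2) * hus
  have c4 : ∑ i, ∑ j, Hi i j * hess sq2 z i j
      = u / (g * A) * ((m:ℝ) + 1 - 2 * s * A' / q) := by
    rw [sum_congr rfl fun i _ => (show ∑ j, Hi i j * hess sq2 z i j
      = if i = 0 then 0 else Hi i i from by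
        rcases eq_or_ne i 0 with h | h
        · simp [hhs, h]
        · simp [hhs, h]), Fin.sum_univ_succ, if_pos rfl, zero_add]
    simp only [Fin.succ_ne_zero, if_false, hHi, blk_succ_succ, if_true]
    rw [sum_add_distrib, sum_const, Finset.card_univ, Fintype.card_fin, nsmul_eq_mul,
      show (∑ i, -(A' * u) / (g * A * q) * x i * x i)
        = ∑ i, (-(A' * u) / (g * A * q)) * (x i * x i) from sum_congr rfl fun i _ => by ring, hS']
    push_cast
    field_simp
    ring
  -- assemble
  simp only [hhW, mul_assoc, ← mul_sum]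
  rw [show (∑ i, ∑ j, Hi i j * (u ^ M * (deriv K s * hess sq2 z i j)
      + u ^ M * (deriv (deriv K) s * (pd sq2 i z * pd sq2 j z))
      + (M:ℝ) * (u ^ (M - 1) * (deriv K s
          * (pd (graphFun G) i z * pd sq2 j z + pd sq2 i z * pd (graphFun G) j z)))
      + K s * ((M:ℝ) * (u ^ (M - 1) * hess (graphFun G) z i j))
      + K s * ((M:ℝ) * (((M - 1 : ℕ) : ℝ) * (u ^ (M - 1 - 1)
          * (pd (graphFun G) i z * pd (graphFun G) j z))))))
      = u ^ M * deriv K s * (u / (g * A) * ((m:ℝ) + 1 - 2 * s * A' / q))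
        + u ^ M * deriv (deriv K) s * (2 * s * u / (g * q))
        + (M:ℝ) * u ^ (M - 1) * deriv K s * (2 * s * A * u ^ 2 / (g ^ 2 * q) + 2 * s * A * u ^ 2 / (g ^ 2 * q))
        + K s * (M:ℝ) * u ^ (M - 1) * ((m:ℝ) + 2)
        + K s * (M:ℝ) * ((M - 1 : ℕ) : ℝ) * u ^ (M - 1 - 1)
          * (2 * s * A ^ 2 * u ^ 3 / (g ^ 3 * q) + u * y ^ 2 / g ^ 2) from by
    rw [← c4, ← c1, ← c0, ← c3]
    nth_rewrite 1 [← c2]
    rw [← c2']
    simp only [mul_add, mul_sum, sum_add_distrib]
    simp only [← sum_add_distrib]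
    exact sum_congr rfl fun i _ => sum_congr rfl fun j _ => by ring]
  rw [(hKd s hs0).deriv, hK2, show K s = H s * (g ^ M)⁻¹ from rfl]
  simp only [← hg, ← hA, ← hA', hM, show m + 3 - 1 = m + 2 by omega,
    show m + 2 - 1 = m + 1 by omega]
  push_cast
  refine mul_eq_zero_of_right _ ?_
  have h2' : (deriv H s + 2 * s * deriv (deriv H) s) * A * g + (m:ℝ) * deriv H s * q * g
      + ((m:ℝ) + 3) * H s * q * A = 0 := by
    field_simp at h2
    linear_combination h2
  have hqne : q ≠ 0 := hq.ne'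
  simp only [pow_succ]
  field_simp
  rw [mul_zero]
  refine mul_eq_zero_of_right _ ?_
  field_simp
  simp only [hqdef] at h2' ⊢
  linear_combination (u * u * g) * h2'
    + ((-((m:ℝ) + 3)) * ((m:ℝ) + 2) * H s * g * A * q) * hus

/-- The graph function is not a quadratic polynomial. -/
lemma graphFun_not_quadratic {G : ℝ → ℝ} (hG : 0 < G 0) :
    ¬ ∃ (A : Matrix (Fin (k + 1)) (Fin (k + 1)) ℝ) (b : Fin (k + 1) → ℝ) (c : ℝ),
      ∀ z : EuclideanSpace ℝ (Fin (k + 1)),
        graphFun G z = ∑ i, ∑ j, A i j * z i * z j + ∑ i, b i * z i + c := by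
  rintro ⟨A, b, c, h⟩
  have hax : ∀ t : ℝ, √(t * t + G 0 * G 0) = A 0 0 * t * t + b 0 * t + c := fun t => by
    have := h (EuclideanSpace.single 0 t)
    simpa [graphFun, sq2, Fin.sum_univ_succ, EuclideanSpace.single_apply, Fin.succ_ne_zero] using this
  set g := G 0 with hg
  have h0 := hax 0
  simp [hg.symm, Real.sqrt_mul_self hG.le] at h0
  have hm := hax (-g)
  have hp := hax g
  have h2 := hax (2 * g)
  have e1 : √(g * g + g * g) = g * √2 := by
    rw [show g * g + g * g = g * g * 2 by ring, Real.sqrt_mul (by positivity), Real.sqrt_mul_self hG.le]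
  have e2 : √(2 * g * (2 * g) + g * g) = g * √5 := by
    rw [show 2 * g * (2 * g) + g * g = g * g * 5 by ring, Real.sqrt_mul (by positivity),
      Real.sqrt_mul_self hG.le]
  rw [neg_mul_neg, e1] at hm
  rw [e1] at hp
  rw [e2] at h2
  have hb : b 0 * g = 0 := by linarith
  have hr : 4 * √2 - 3 = √5 := by
    apply mul_left_cancel₀ hG.ne'
    linear_combination 4 * hp - h2 + 2 * hb + 3 * h0.symm
  have hs2 := Real.mul_self_sqrt (show (0:ℝ) ≤ 2 by norm_num)
  have hs5 := Real.mul_self_sqrt (show (0:ℝ) ≤ 5 by norm_num)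
  rw [← hr] at hs5
  nlinarith [sq_nonneg (√2 - 3/2)]

end Vale.Agent.P252
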